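import Vale.Agent.N337A.Hash
import Vale.Agent.P337.Thom

/-!
Every tuple of real roots of a polynomial is pinned down by few sign tests.
-/

namespace Vale.Agent.N337A

open Finset Polynomial

/-- The product of the selected derivatives. -/
noncomputable def hp (ψ : ℝ[X]) (c : ℕ → ℕ) : ℝ[X] :=
  ∏ k ∈ range (c 5 + 1), if (c 2 * k + c 3) % c 1 < c 4 then derivative^[k] ψ else 1

/-- The test with code `c` at the point `x`, with the auxiliary variable `u`. -/
noncomputable def test (ψ : ℝ[X]) (c : ℕ → ℕ) (x u : ℝ) : ℝ :=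
  ∑ l ∈ range (c 6), ((derivative^[l] (hp ψ c)).eval x) ^ 2 +
    (((c 7 : ℝ) - 1) * (derivative^[c 6] (hp ψ c)).eval x * u ^ 2 - 1) ^ 2

theorem test_nonneg (ψ : ℝ[X]) (c : ℕ → ℕ) (x u : ℝ) : 0 ≤ test ψ c x u :=
  add_nonneg (sum_nonneg fun _ _ => sq_nonneg _) (sq_nonneg _)

/-- `G` has the sign `s` immediately to the right of `x`. -/
def Sp (G : ℝ[X]) (x : ℝ) (s : SignType) : Prop :=
  ∀ᶠ y in nhdsWithin x (Set.Ioi x), SignType.sign (G.eval y) = s

theorem Sp.unique {G : ℝ[X]} {x : ℝ} {s s' : SignType} (h : Sp G x s) (h' : Sp G x s') :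
    s = s' := by
  obtain ⟨y, h1, h2⟩ := (h.and h').exists
  exact h1.symm.trans h2

theorem mult_ne {G : ℝ[X]} (hG : G ≠ 0) (x : ℝ) :
    (derivative^[G.rootMultiplicity x] G).eval x ≠ 0 := by
  rw [eval_iterate_derivative_rootMultiplicity, nsmul_eq_mul]
  exact mul_ne_zero (Nat.cast_ne_zero.2 (Nat.factorial_ne_zero _))
    (eval_divByMonic_pow_rootMultiplicity_ne_zero x hG)

theorem sp_mult {G : ℝ[X]} (hG : G ≠ 0) (x : ℝ) :
    Sp G x (SignType.sign ((derivative^[G.rootMultiplicity x] G).eval x)) := by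
  have h1 := eval_divByMonic_pow_rootMultiplicity_ne_zero x hG
  have h2 := pow_mul_divByMonic_rootMultiplicity_eq G x
  rw [eval_iterate_derivative_rootMultiplicity, nsmul_eq_mul, sign_mul,
    sign_pos (Nat.cast_pos.2 (Nat.factorial_pos _)), one_mul]
  generalize G /ₘ (X - C x) ^ G.rootMultiplicity x = Q at h1 h2 ⊢
  have h3 : ∀ᶠ y in nhds x, SignType.sign (Q.eval y) = SignType.sign (Q.eval x) := by
    rcases lt_or_gt_of_ne h1 with h | h
    · filter_upwards [Q.continuous.continuousAt.eventually_lt continuousAt_const h] with y hy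
      rw [sign_neg hy, sign_neg h]
    · filter_upwards [continuousAt_const.eventually_lt Q.continuous.continuousAt h] with y hy
      rw [sign_pos hy, sign_pos h]
  filter_upwards [nhdsWithin_le_nhds h3, self_mem_nhdsWithin] with y hy hy'
  rw [← h2, eval_mul, sign_mul, hy, eval_pow, eval_sub, eval_X, eval_C,
    sign_pos (pow_pos (sub_pos.2 hy') _), one_mul]

theorem sp_of_deriv {G : ℝ[X]} {x : ℝ} {j : ℕ} (h0 : ∀ l < j, (derivative^[l] G).eval x = 0)
    (h1 : (derivative^[j] G).eval x ≠ 0) : Sp G x (SignType.sign ((derivative^[j] G).eval x)) := by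
  have hG : G ≠ 0 := by
    rintro rfl
    rw [iterate_derivative_zero, eval_zero] at h1
    exact h1 rfl
  have : G.rootMultiplicity x = j := by
    rcases lt_trichotomy (G.rootMultiplicity x) j with h | h | h
    · exact absurd (h0 _ h) (mult_ne hG x)
    · exact h
    · exact absurd (isRoot_iterate_derivative_of_lt_rootMultiplicity h) h1
  rw [← this]
  exact sp_mult hG x

/-- The sign of `G` immediately to the right of `x`. -/
noncomputable def sg (G : ℝ[X]) (x : ℝ) : SignType :=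
  SignType.sign ((derivative^[G.rootMultiplicity x] G).eval x)

theorem sg_ne {G : ℝ[X]} (hG : G ≠ 0) (x : ℝ) : sg G x ≠ 0 := fun h =>
  mult_ne hG x (sign_eq_zero_iff.1 h)

theorem sp_sg {G : ℝ[X]} (hG : G ≠ 0) (x : ℝ) : Sp G x (sg G x) := sp_mult hG x

theorem deriv_ne {ψ : ℝ[X]} (hψ : ψ ≠ 0) {k : ℕ} (hk : k ≤ ψ.natDegree) :
    derivative^[k] ψ ≠ 0 := by
  intro h
  have h1 := coeff_iterate_derivative (k := k) ψ (ψ.natDegree - k)
  rw [h, coeff_zero, Nat.sub_add_cancel hk, nsmul_eq_mul] at h1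
  exact mul_ne_zero (Nat.cast_ne_zero.2 (Nat.descFactorial_pos.2 hk).ne')
    (leadingCoeff_ne_zero.2 hψ) h1.symm

theorem thom_key (F : ℝ[X]) {a b : ℝ} (hab : a ≤ b)
    (h : ∀ k ≤ F.natDegree, SignType.sign ((derivative^[k] F).eval a) =
      SignType.sign ((derivative^[k] F).eval b)) :
    ∀ x ∈ Set.Icc a b, SignType.sign (F.eval x) = SignType.sign (F.eval a) := by
  have key : ∀ j k, k + j = F.natDegree + 1 → ∀ x ∈ Set.Icc a b,
      SignType.sign ((derivative^[k] F).eval x) = SignType.sign ((derivative^[k] F).eval a) := by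
    intro j
    induction j with
    | zero =>
      intro k hk x _
      rw [iterate_derivative_eq_zero (by omega)]
      simp
    | succ j ih =>
      intro k hk
      refine P337.thom_step _ hab (h k (by omega)) ?_
      have := ih (k + 1) (by omega)
      rwa [Function.iterate_succ_apply'] at this
  exact key (F.natDegree + 1) 0 (by omega)

theorem thom_sg_lt {ψ : ℝ[X]} (hψ : ψ ≠ 0) {r r' : ℝ} (hr : r < r') (h' : ψ.eval r' = 0) :
    ∃ k ≤ ψ.natDegree, sg (derivative^[k] ψ) r ≠ sg (derivative^[k] ψ) r' := by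
  by_contra hcon
  push Not at hcon
  have hall : ∀ x : ℝ, ∀ᶠ y in nhdsWithin x (Set.Ioi x), ∀ k ∈ range (ψ.natDegree + 1),
      SignType.sign ((derivative^[k] ψ).eval y) = sg (derivative^[k] ψ) x := by
    intro x
    rw [Filter.eventually_all_finset]
    intro k hk
    exact sp_sg (deriv_ne hψ (Nat.lt_succ_iff.1 (mem_range.1 hk))) x
  obtain ⟨y, hy1, hy2⟩ := ((hall r).and (nhdsWithin_le_nhds (Iio_mem_nhds hr))).exists
  obtain ⟨y', hy1', hy2'⟩ := ((hall r').and self_mem_nhdsWithin).exists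
  have h1 : y < r' := hy2
  have h2 : r' < y' := hy2'
  have h3 := thom_key ψ (h1.trans h2).le (fun k hk => by
    rw [hy1 k (mem_range.2 (Nat.lt_succ_of_le hk)), hy1' k (mem_range.2 (Nat.lt_succ_of_le hk)),
      hcon k hk]) r' ⟨h1.le, h2.le⟩
  have h4 := hy1 0 (mem_range.2 (Nat.succ_pos _))
  rw [Function.iterate_zero_apply, ← h3, h', sign_zero] at h4
  exact sg_ne hψ r h4.symm

theorem thom_sg {ψ : ℝ[X]} (hψ : ψ ≠ 0) {r r' : ℝ} (hr : r ≠ r') (h : ψ.eval r = 0)
    (h' : ψ.eval r' = 0) :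
    ∃ k ≤ ψ.natDegree, sg (derivative^[k] ψ) r ≠ sg (derivative^[k] ψ) r' := by
  rcases lt_or_gt_of_ne hr with h1 | h1
  · exact thom_sg_lt hψ h1 h'
  · obtain ⟨k, hk, h2⟩ := thom_sg_lt hψ h1 h
    exact ⟨k, hk, h2.symm⟩

theorem sp_prod {ψ : ℝ[X]} (hψ : ψ ≠ 0) (q : ℕ → Prop) [DecidablePred q] (x : ℝ) :
    Sp (∏ k ∈ range (ψ.natDegree + 1), if q k then derivative^[k] ψ else 1) x
      (∏ k ∈ range (ψ.natDegree + 1), if q k then sg (derivative^[k] ψ) x else 1) := by
  have hall : ∀ᶠ y in nhdsWithin x (Set.Ioi x), ∀ k ∈ range (ψ.natDegree + 1),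
      SignType.sign ((derivative^[k] ψ).eval y) = sg (derivative^[k] ψ) x := by
    rw [Filter.eventually_all_finset]
    intro k hk
    exact sp_sg (deriv_ne hψ (Nat.lt_succ_iff.1 (mem_range.1 hk))) x
  filter_upwards [hall] with y hy
  rw [eval_prod]
  refine (map_prod (signHom : ℝ →*₀ SignType) _ _).trans (prod_congr rfl fun k hk => ?_)
  split_ifs
  · exact hy k hk
  · rw [eval_one, map_one]

theorem prod_ne {ψ : ℝ[X]} (hψ : ψ ≠ 0) (q : ℕ → Prop) [DecidablePred q] {x x' : ℝ}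
    (h : (((range (ψ.natDegree + 1)).filter fun k =>
      sg (derivative^[k] ψ) x ≠ sg (derivative^[k] ψ) x').filter q).card = 1) :
    (∏ k ∈ range (ψ.natDegree + 1), if q k then sg (derivative^[k] ψ) x else 1) ≠
      ∏ k ∈ range (ψ.natDegree + 1), if q k then sg (derivative^[k] ψ) x' else 1 := by
  obtain ⟨k0, hk0⟩ := card_eq_one.1 h
  have h1 := mem_singleton_self k0
  rw [← hk0, mem_filter, mem_filter] at h1
  obtain ⟨⟨h2, h3⟩, h4⟩ := h1
  rw [← mul_prod_erase _ _ h2, ← mul_prod_erase _ _ h2, if_pos h4, if_pos h4]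
  have h5 : (∏ k ∈ (range (ψ.natDegree + 1)).erase k0,
      if q k then sg (derivative^[k] ψ) x else 1) =
      ∏ k ∈ (range (ψ.natDegree + 1)).erase k0, if q k then sg (derivative^[k] ψ) x' else 1 := by
    refine prod_congr rfl fun k hk => ?_
    split_ifs with hq
    · by_contra hne
      have : k ∈ ({k0} : Finset ℕ) := by
        rw [← hk0]
        exact mem_filter.2 ⟨mem_filter.2 ⟨(mem_erase.1 hk).2, hne⟩, hq⟩
      exact (mem_erase.1 hk).1 (mem_singleton.1 this)
    · rfl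
  rw [h5]
  intro h6
  refine h3 (mul_right_cancel₀ (prod_ne_zero_iff.2 fun k hk => ?_) h6)
  split_ifs
  · exact sg_ne (deriv_ne hψ (Nat.lt_succ_iff.1 (mem_range.1 (mem_erase.1 hk).2))) x'
  · exact one_ne_zero

theorem test_zero {ψ : ℝ[X]} {c : ℕ → ℕ} {x u : ℝ} (h : test ψ c x u = 0) :
    ∃ s, Sp (hp ψ c) x s ∧ SignType.sign ((c 7 : ℝ) - 1) * s = 1 := by
  unfold test at h
  have a1 : 0 ≤ ∑ l ∈ range (c 6), ((derivative^[l] (hp ψ c)).eval x) ^ 2 :=
    sum_nonneg fun _ _ => sq_nonneg _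
  have a2 := sq_nonneg (((c 7 : ℝ) - 1) * (derivative^[c 6] (hp ψ c)).eval x * u ^ 2 - 1)
  have h1 : ∑ l ∈ range (c 6), ((derivative^[l] (hp ψ c)).eval x) ^ 2 = 0 := by linarith
  have h2 : (((c 7 : ℝ) - 1) * (derivative^[c 6] (hp ψ c)).eval x * u ^ 2 - 1) ^ 2 = 0 := by
    linarith
  have h3 := sub_eq_zero.1 (pow_eq_zero_iff two_ne_zero |>.1 h2)
  have h4 : 0 < ((c 7 : ℝ) - 1) * (derivative^[c 6] (hp ψ c)).eval x := by
    by_contra hcon
    have := mul_nonpos_of_nonpos_of_nonneg (not_lt.1 hcon) (sq_nonneg u)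
    linarith
  refine ⟨_, sp_of_deriv (j := c 6) (fun l hl => ?_) (right_ne_zero_of_mul h4.ne'), ?_⟩
  · exact pow_eq_zero_iff two_ne_zero |>.1
      ((sum_eq_zero_iff_of_nonneg fun _ _ => sq_nonneg _).1 h1 l (mem_range.2 hl))
  · rw [← sign_mul, sign_pos h4]

theorem isolate {ψ : ℝ[X]} (hψ : ψ ≠ 0) {M n t : ℕ} (hn : 0 < n) (hM : ψ.natDegree ≤ M)
    (ht : n * (M + 1) < 2 ^ t) {x : ℕ → ℝ} (hx : ∀ i < n, ψ.eval (x i) = 0) :
    ∃ c : ℕ → ℕ → ℕ, (∀ r q, c r q < 2 ^ (2 * t + 3)) ∧ (∀ r, c r 0 < n) ∧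
      (∃ u : ℕ → ℝ, ∀ r, test ψ (c r) (x (c r 0)) (u r) = 0) ∧
      ∀ x' u' : ℕ → ℝ, (∀ i < n, ψ.eval (x' i) = 0) →
        (∀ r < 8 * n * (t + 2) * t, test ψ (c r) (x' (c r 0)) (u' r) = 0) →
        ∀ i < n, x' i = x i := by
  classical
  have b1 : M + 1 ≤ n * (M + 1) := Nat.le_mul_of_pos_left _ hn
  have b2 : n ≤ n * (M + 1) := Nat.le_mul_of_pos_right _ (Nat.succ_pos M)
  obtain ⟨p, hp1, i, a, b, θ, hb, hc⟩ := exists_tests
    ((range n ×ˢ ψ.roots.toFinset).filter fun z => x z.1 ≠ z.2) (fun z => z.1)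
    (fun z => (range (ψ.natDegree + 1)).filter fun k =>
      sg (derivative^[k] ψ) (x z.1) ≠ sg (derivative^[k] ψ) z.2)
    (n := n) (d := ψ.natDegree) (t := t) hn
    (fun z hz => mem_range.1 (mem_product.1 (mem_filter.1 hz).1).1)
    (fun z hz => by
      obtain ⟨h1, h2⟩ := mem_filter.1 hz
      obtain ⟨h3, h4⟩ := mem_product.1 h1
      obtain ⟨k, hk, h5⟩ := thom_sg hψ h2 (hx _ (mem_range.1 h3))
        (isRoot_of_mem_roots (Multiset.mem_toFinset.1 h4))
      exact ⟨⟨k, mem_filter.2 ⟨mem_range.2 (Nat.lt_succ_of_le hk), h5⟩⟩, filter_subset _ _⟩)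
    (by
      refine lt_of_le_of_lt ((card_filter_le _ _).trans ?_) ht
      rw [card_product, card_range]
      exact Nat.mul_le_mul_left _ ((Multiset.toFinset_card_le _).trans
        ((card_roots' ψ).trans (by omega))))
    (by omega)
  let H : ℕ → ℝ[X] := fun r => ∏ k ∈ range (ψ.natDegree + 1),
    if (a r * k + b r) % p < θ r then derivative^[k] ψ else 1
  have hH : ∀ r, H r ≠ 0 := by
    intro r
    refine prod_ne_zero_iff.2 fun k hk => ?_
    split_ifs
    · exact deriv_ne hψ (Nat.lt_succ_iff.1 (mem_range.1 hk))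
    · exact one_ne_zero
  let j : ℕ → ℕ := fun r => (H r).rootMultiplicity (x (i r))
  let v : ℕ → ℝ := fun r => (derivative^[j r] (H r)).eval (x (i r))
  have hv : ∀ r, v r ≠ 0 := fun r => mult_ne (hH r) _
  let s : ℕ → ℕ := fun r => if 0 < v r then 2 else 0
  let c : ℕ → ℕ → ℕ := fun r q => [i r, p, a r, b r, θ r, ψ.natDegree, j r, s r].getD q 0
  have hcH : ∀ r, hp ψ (c r) = H r := fun r => rfl
  have hj : ∀ r, j r ≤ (M + 1) * (M + 1) := by
    intro r
    have h1 : j r ≤ (H r).natDegree := by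
      by_contra hcon
      apply hv r
      change (derivative^[j r] (H r)).eval (x (i r)) = 0
      rw [iterate_derivative_eq_zero (not_le.1 hcon), eval_zero]
    have h2 : (H r).natDegree ≤ ∑ _k ∈ range (ψ.natDegree + 1), (M + 1) := by
      refine (natDegree_prod_le _ _).trans (sum_le_sum fun k _ => ?_)
      split_ifs
      · have := natDegree_iterate_derivative ψ k
        omega
      · rw [natDegree_one]
        omega
    rw [sum_const, card_range, smul_eq_mul] at h2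
    exact h1.trans (h2.trans (Nat.mul_le_mul_right _ (by omega)))
  have e1 : 2 ^ (2 * t + 3) = 8 * (2 ^ t * 2 ^ t) := by ring
  have e2 : 2 ^ (t + 2) = 4 * 2 ^ t := by ring
  have e3 : 2 ^ t ≤ 2 ^ t * 2 ^ t := Nat.le_mul_self _
  have e4 : (M + 1) * (M + 1) ≤ 2 ^ t * 2 ^ t := Nat.mul_le_mul (by omega) (by omega)
  have htest : ∀ r, test ψ (c r) (x (c r 0)) (Real.sqrt |v r|)⁻¹ = 0 := by
    intro r
    change ∑ l ∈ range (j r), ((derivative^[l] (H r)).eval (x (i r))) ^ 2 +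
      (((s r : ℝ) - 1) * v r * (Real.sqrt |v r|)⁻¹ ^ 2 - 1) ^ 2 = 0
    have h1 : ((s r : ℝ) - 1) * v r = |v r| := by
      by_cases h : 0 < v r
      · have : s r = 2 := if_pos h
        rw [this, abs_of_pos h]
        push_cast
        ring
      · have : s r = 0 := if_neg h
        rw [this, abs_of_nonpos (not_lt.1 h)]
        push_cast
        ring
    rw [h1, inv_pow, Real.sq_sqrt (abs_nonneg _), mul_inv_cancel₀ (abs_ne_zero.2 (hv r)), sub_self,
      sum_eq_zero fun l hl => by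
        rw [(isRoot_iterate_derivative_of_lt_rootMultiplicity (mem_range.1 hl)).eq_zero]
        exact zero_pow two_ne_zero]
    simp
  refine ⟨c, fun r q => ?_, fun r => (hb r).1, ⟨_, htest⟩, fun x' u' hx' h i0 hi0 => ?_⟩
  · obtain ⟨h1, h2, h3, h4⟩ := hb r
    have h5 := hj r
    have h6 : s r ≤ 2 := by
      change (if 0 < v r then 2 else 0) ≤ 2
      split_ifs <;> omega
    have h7 : ∀ y ∈ [i r, p, a r, b r, θ r, ψ.natDegree, j r, s r], y < 2 ^ (2 * t + 3) := by
      intro y hy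
      simp only [List.mem_cons, List.not_mem_nil, or_false] at hy
      omega
    change [i r, p, a r, b r, θ r, ψ.natDegree, j r, s r].getD q 0 < _
    rcases lt_or_ge q [i r, p, a r, b r, θ r, ψ.natDegree, j r, s r].length with hq | hq
    · rw [List.getD_eq_getElem _ _ hq]
      exact h7 _ (List.getElem_mem hq)
    · rw [List.getD_eq_default _ _ hq]
      positivity
  · by_contra hne
    obtain ⟨r, hr, h1, h2⟩ := hc (i0, x' i0) (mem_filter.2 ⟨mem_product.2 ⟨mem_range.2 hi0,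
      Multiset.mem_toFinset.2 ((mem_roots hψ).2 (hx' i0 hi0))⟩, fun h => hne h.symm⟩)
    have h3 : c r 0 = i0 := h1
    obtain ⟨s1, a1, a2⟩ := test_zero (htest r)
    obtain ⟨s2, a3, a4⟩ := test_zero (h r hr)
    rw [h3, hcH] at a1 a3
    have h4 : s1 = s2 := mul_left_cancel₀ (left_ne_zero_of_mul (by
      rw [a2]
      exact one_ne_zero)) (a2.trans a4.symm)
    refine prod_ne hψ (fun k => (a r * k + b r) % p < θ r) h2 ?_
    rw [(sp_prod hψ _ _).unique a1, (sp_prod hψ _ _).unique a3, h4]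

end Vale.Agent.N337A
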