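import Vale.Agent.N337A.Steps
import Vale.Agent.N337A.Isolate
import Vale.Agent.P337.Parse

/-!
Counting the grid points over a parameter.
-/

namespace Vale.Agent.N337A

open Vale.Agent.Lib.PolyTime hiding C P
open Vale.Agent.P337 Finset Filter Topology
open scoped Polynomial

/-- Bounds for the degrees. -/
def Bd (χ : ℝ[X][X]) (M : ℕ) : Prop := χ.natDegree ≤ M ∧ ∀ k, (χ.coeff k).natDegree ≤ M

/-- The equation for upper bounds of two degrees. -/
noncomputable def q0 (χ : ℝ[X][X]) (M k d : ℕ) : ℝ :=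
  ∑ k' ∈ range (M + 1), ∑ j ∈ range (M + 1),
    if k < k' ∨ (k' = k ∧ d < j) then (χ.coeff k').coeff j ^ 2 else 0

/-- The equation for two degrees. -/
noncomputable def q1 (χ : ℝ[X][X]) (M k d : ℕ) (l : ℝ) : ℝ :=
  q0 χ M k d + (l * (χ.coeff k).coeff d - 1) ^ 2

/-- The equation for the largest index of a nonzero term. -/
noncomputable def tq (u : ℕ → ℝ) (D c : ℕ) (l : ℝ) : ℝ :=
  (if c ≤ D then 0 else 1) + (∑ c' ∈ range (D + 1), if c < c' then u c' ^ 2 else 0) +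
    (l * u c - 1) ^ 2

theorem ite_sq_nonneg (p : Prop) [Decidable p] (x : ℝ) : 0 ≤ if p then x ^ 2 else 0 := by
  split_ifs <;> positivity

theorem q0_nonneg (χ : ℝ[X][X]) (M k d : ℕ) : 0 ≤ q0 χ M k d :=
  sum_nonneg fun _ _ => sum_nonneg fun _ _ => ite_sq_nonneg _ _

theorem q1_nonneg (χ : ℝ[X][X]) (M k d : ℕ) (l : ℝ) : 0 ≤ q1 χ M k d l :=
  add_nonneg (q0_nonneg _ _ _ _) (sq_nonneg _)

theorem tq_nonneg (u : ℕ → ℝ) (D c : ℕ) (l : ℝ) : 0 ≤ tq u D c l :=
  add_nonneg (add_nonneg (by split_ifs <;> norm_num) (sum_nonneg fun _ _ => ite_sq_nonneg _ _))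
    (sq_nonneg _)

theorem q0_iff {χ : ℝ[X][X]} {M : ℕ} (h : Bd χ M) (k d : ℕ) :
    q0 χ M k d = 0 ↔ χ.natDegree ≤ k ∧ (χ.coeff k).natDegree ≤ d := by
  simp only [q0, sum_eq_zero_iff_of_nonneg fun _ _ => sum_nonneg fun _ _ => ite_sq_nonneg _ _,
    sum_eq_zero_iff_of_nonneg fun _ _ => ite_sq_nonneg _ _, ite_eq_right_iff, mem_range,
    pow_eq_zero_iff two_ne_zero, Polynomial.natDegree_le_iff_coeff_eq_zero]
  constructor
  · intro h1
    have h2 : ∀ k' j, k < k' ∨ (k' = k ∧ d < j) → (χ.coeff k').coeff j = 0 := by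
      intro k' j h2
      by_cases h3 : k' < M + 1
      · by_cases h4 : j < M + 1
        · exact h1 k' h3 j h4 h2
        · exact Polynomial.coeff_eq_zero_of_natDegree_lt ((h.2 k').trans_lt (by omega))
      · rw [Polynomial.coeff_eq_zero_of_natDegree_lt (h.1.trans_lt (by omega)),
          Polynomial.coeff_zero]
    exact ⟨fun k' hk => Polynomial.ext fun j => h2 k' j (.inl hk),
      fun j hj => h2 k j (.inr ⟨rfl, hj⟩)⟩
  · rintro ⟨h1, h2⟩ k' - j - (h3 | ⟨rfl, h3⟩)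
    · rw [h1 k' h3, Polynomial.coeff_zero]
    · exact h2 j h3

theorem coeff_eq_lead {χ : ℝ[X][X]} {k : ℕ} (h : χ.natDegree ≤ k) (h0 : χ.coeff k ≠ 0) :
    χ.coeff k = χ.leadingCoeff := by
  rw [h.antisymm' (Polynomial.le_natDegree_of_ne_zero h0)]
  rfl

theorem q1_zero {χ : ℝ[X][X]} {M k d : ℕ} {l : ℝ} (h : Bd χ M) (h0 : q1 χ M k d l = 0) :
    χ.coeff k = χ.leadingCoeff ∧ d ≤ M ∧ ∀ x, mu d (fun j => l * (χ.coeff k).coeff j) x = 0 ↔
      (Polynomial.X * χ.leadingCoeff).eval x = 0 := by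
  rw [q1, add_eq_zero_iff_of_nonneg (q0_nonneg _ _ _ _) (sq_nonneg _), q0_iff h,
    pow_eq_zero_iff two_ne_zero, sub_eq_zero] at h0
  obtain ⟨⟨h1, h2⟩, h3⟩ := h0
  have h4 : (χ.coeff k).coeff d ≠ 0 := right_ne_zero_of_mul_eq_one h3
  have h5 := coeff_eq_lead h1 fun h => h4 (by rw [h, Polynomial.coeff_zero])
  refine ⟨h5, (Polynomial.le_natDegree_of_ne_zero h4).trans (h.2 k), fun x => ?_⟩
  refine (iff_of_eq (congrArg (· = 0) ?_)).trans
    (mul_eq_zero_iff_left (left_ne_zero_of_mul_eq_one h3))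
  rw [← h5, Polynomial.eval_mul, Polynomial.eval_X,
    Polynomial.eval_eq_sum_range' (Nat.lt_succ_of_le h2), sum_range_succ, mu]
  simp only [mul_add, mul_sum]
  rw [add_comm]
  congr 1
  · exact sum_congr rfl fun j _ => by ring
  · linear_combination (-x ^ (d + 1)) * h3

theorem q1_self {χ : ℝ[X][X]} {M : ℕ} (h : Bd χ M) (h0 : χ ≠ 0) :
    q1 χ M χ.natDegree χ.leadingCoeff.natDegree χ.leadingCoeff.leadingCoeff⁻¹ = 0 := by
  rw [q1, (q0_iff h _ χ.leadingCoeff.natDegree).2 ⟨le_rfl, le_rfl⟩, Polynomial.coeff_natDegree,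
    Polynomial.coeff_natDegree, inv_mul_cancel₀ (by simpa using h0)]
  simp

theorem tq_zero {u : ℕ → ℝ} {D c : ℕ} {l : ℝ} (h : tq u D c l = 0) : Top u D c := by
  rw [tq, add_eq_zero_iff_of_nonneg (add_nonneg (by split_ifs <;> norm_num)
    (sum_nonneg fun _ _ => ite_sq_nonneg _ _)) (sq_nonneg _), add_eq_zero_iff_of_nonneg
    (by split_ifs <;> norm_num) (sum_nonneg fun _ _ => ite_sq_nonneg _ _),
    sum_eq_zero_iff_of_nonneg fun _ _ => ite_sq_nonneg _ _, pow_eq_zero_iff two_ne_zero,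
    sub_eq_zero] at h
  refine ⟨by simpa using h.1.1, right_ne_zero_of_mul_eq_one h.2, fun c' h1 h2 => ?_⟩
  simpa [h1] using h.1.2 c' (mem_range.2 (Nat.lt_succ_of_le h2))

theorem tq_self {u : ℕ → ℝ} {D c : ℕ} (h : Top u D c) : tq u D c (u c)⁻¹ = 0 := by
  rw [tq, if_pos h.1, inv_mul_cancel₀ h.2.1, sum_eq_zero fun c' hc => by
    rw [ite_eq_right_iff]
    exact fun h1 => by simp [h.2.2 c' h1 (Nat.lt_succ_iff.1 (mem_range.1 hc))]]
  simp

section SG

variable {α β : Type} [Enc α] [Enc β] {N : α → ℕ} {D : α → β → Prop}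

theorem SG_q0 {χ : α → Pt → ℝ[X][X]} (hχ : SG0 (pev (pev (rev N))) χ) {M : α → ℕ} (hM : CHF M)
    {k d : α → β → ℕ} (hk : CHF fun x : α × β => k x.1 x.2) (hd : CHF fun x : α × β => d x.1 x.2) :
    SG (rev N) D fun a b z => q0 (χ a z) (M a) (k a b) (d a b) := by
  have h1 : CHF fun x : α × (β × ℕ) × ℕ => k x.1 x.2.1.1 :=
    hk.comp (f := fun x : α × (β × ℕ) × ℕ => (x.1, x.2.1.1)) (by fun_prop)
  have h2 : CHF fun x : α × (β × ℕ) × ℕ => d x.1 x.2.1.1 :=
    hd.comp (f := fun x : α × (β × ℕ) × ℕ => (x.1, x.2.1.1)) (by fun_prop)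
  exact SG.sum_range (by fun_prop) (SG.sum_range (by fun_prop) (SG.ite (by fun_prop)
    ((hχ.inst.polyCoeff (by fun_prop)).polyCoeff (by fun_prop)).sq SG.zero))

theorem SG_q1 {χ : α → Pt → ℝ[X][X]} (hχ : SG0 (pev (pev (rev N))) χ) {M k d : α → ℕ}
    (hM : CHF M) (hk : CHF k) (hd : CHF d) {l : α → Pt → ℝ} (hl : SG0 (rev N) l) :
    SG0 (rev N) fun a z => q1 (χ a z) (M a) (k a) (d a) (l a z) :=
  (SG_q0 hχ hM (by fun_prop) (by fun_prop)).add
    ((hl.mul ((hχ.polyCoeff (by fun_prop)).polyCoeff (by fun_prop))).sub SG.one).sq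

theorem SG_tq {u : α → ℕ → Pt → ℝ} (hu : SG (rev N) (fun _ _ => True) u) {M c : α → ℕ}
    (hM : CHF M) (hc : CHF c) {l : α → Pt → ℝ} (hl : SG0 (rev N) l) :
    SG0 (rev N) fun a z => tq (fun j => u a j z) (M a) (c a) (l a z) :=
  ((SG.ite (by fun_prop) SG.zero SG.one).add (SG.sum_range (by fun_prop) (SG.ite (by fun_prop)
    (hu.reindex (fun _ (x : Unit × ℕ) => x.2) (by fun_prop) fun _ _ _ => trivial).sq SG.zero))).add
    ((hl.mul (hu.reindex (fun a _ => c a) (by fun_prop) fun _ _ _ => trivial)).sub SG.one).sq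

theorem SG_test {ψ : α → Pt → ℝ[X]} (hψ : SG0 (pev (rev N)) ψ) {c : α → β → ℕ → ℕ}
    (hc : ∀ q, CHF fun x : α × β => c x.1 x.2 q) (hb : EB D fun a b => c a b 5 + 1)
    {x u : α → β → Pt → ℝ} (hx : SG (rev N) D x) (hu : SG (rev N) D u) :
    SG (rev N) D fun a b z => test (ψ a z) (c a b) (x a b z) (u a b z) := by
  have h1 : ∀ q, CHF fun x : α × β × ℕ => c x.1 x.2.1 q := fun q =>
    (hc q).comp (f := fun x : α × β × ℕ => (x.1, x.2.1)) (by fun_prop)
  have h2 : SG (pev (rev N)) D fun a b z => hp (ψ a z) (c a b) :=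
    SG.prod_range ((hc 5).add (CHF.const 1)) hb (SG.ite
      (CHP.lt ((((h1 2).mul (by fun_prop)).add (h1 3)).mod (h1 1)) (h1 4))
      (hψ.inst.iterDeriv (by fun_prop)) SG.one)
  exact (SG.sum_range (hc 6) (((h2.weak fun _ _ h => h.1).iterDeriv (by fun_prop)).polyEval
    (hx.weak fun _ _ h => h.1)).sq).add ((((((SG.natCast (hc 7)).sub SG.one).mul
      ((h2.iterDeriv (hc 6)).polyEval hx)).mul hu.sq).sub SG.one).sq)

end SG

theorem agree_join {m n : ℕ} {y z : Pt} (h : agree m y z) :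
    agree (m + n) (join m y fun i : Fin n => z (m + i)) z := by
  intro i hi
  unfold join P337.ext
  split_ifs with h1 h2
  · exact h i h1
  · exact congrArg z (by simp; omega)
  · omega

theorem join_congr {m n : ℕ} {y z : Pt} (h : agree m y z) (x : Fin n → ℝ) :
    join m y x = join m z x := by
  funext i
  unfold join
  split_ifs with h1
  · exact h i h1
  · rfl

theorem join_add (m : ℕ) {n : ℕ} (y : Pt) (x : Fin n → ℝ) (i : ℕ) :
    join m y x (m + i) = P337.ext x i := by simp [join]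

theorem agree_cut (m b : ℕ) {n : ℕ} (y : Pt) (x : Fin n → ℝ) :
    agree (m + b) (join m y fun i : Fin b => P337.ext x i) (join m y x) := by
  simpa only [join_add, join_congr (y := join m y x) (z := y) fun i hi => if_pos hi] using
    agree_join (n := b) (y := join m y x) (z := join m y x) (m := m) fun _ _ => rfl

/-- The grid points over `y` that lie in `S`. -/
def GX (N m n e : ℕ) (F : MvPolynomial (Fin N) ℤ) (S : Set Pt) (y : Pt) : Set (Fin n → ℝ) :=
  {x | (∀ i, (Polynomial.X * (chi N m n e F y).leadingCoeff).eval (x i) = 0) ∧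
    zev N (join m y x) F = 0 ∧ join m y x ∈ S}

/-- Their first `b` coordinates. -/
def GG (b N m n e : ℕ) (F : MvPolynomial (Fin N) ℤ) (S : Set Pt) (y : Pt) : Set (Fin b → ℝ) :=
  (fun (x : Fin n → ℝ) (i : Fin b) => P337.ext x i) '' GX N m n e F S y

theorem GG_congr (b N n e : ℕ) {m : ℕ} (F : MvPolynomial (Fin N) ℤ) (S : Set Pt) {y z : Pt}
    (h : agree m y z) : GG b N m n e F S y = GG b N m n e F S z := by
  simp only [GG, GX, chi_congr F h, join_congr h]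

theorem ncard_eq_card {β : Type} (B : ℕ) (p : ℕ → Prop) (r : ℕ → ℕ → Prop) (g : ℕ → β)
    [DecidablePred fun s => p s ∧ ∀ t < s, p t → ¬ r s t]
    (h : ∀ s t, p s → p t → (r s t ↔ g s = g t)) :
    (g '' {s | s < B ∧ p s}).ncard =
      ((range B).filter fun s => p s ∧ ∀ t < s, p t → ¬ r s t).card := by
  classical
  rw [← Set.ncard_coe_finset, ← Set.InjOn.ncard_image (f := g)]
  · congr 1
    ext w
    simp only [Set.mem_image, coe_filter, mem_range, Set.mem_ofPred_eq]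
    refine ⟨fun h1 => ?_, fun ⟨s, h1, h2⟩ => ⟨s, ⟨h1.1, h1.2.1⟩, h2⟩⟩
    obtain ⟨⟨h2, h3⟩, h4⟩ := Nat.find_spec h1
    exact ⟨_, ⟨h2, h3, fun t ht h5 h6 => Nat.find_min h1 ht
      ⟨⟨ht.trans h2, h5⟩, ((h _ _ h3 h5).1 h6).symm.trans h4⟩⟩, h4⟩
  · intro s hs t ht h1
    simp only [coe_filter, Set.mem_ofPred_eq] at hs ht
    exact le_antisymm (not_lt.1 fun h2 => hs.2.2 t h2 ht.2.1 ((h _ _ hs.2.1 ht.2.1).2 h1))
      (not_lt.1 fun h2 => ht.2.2 s h2 hs.2.1 ((h _ _ ht.2.1 hs.2.1).2 h1.symm))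

end Vale.Agent.N337A

/-!
Projection and counting.
-/

namespace Vale.Agent.N337A

open Vale.Agent.Lib.PolyTime hiding C P
open Vale.Agent.P337 Finset Filter Topology
open scoped Polynomial

variable {α : Type} [Enc α]

/-- The data for the elimination of the variables with numbers from `m` on. -/
structure Ctx (n₀ m n N e M : α → ℕ) (F : (a : α) → MvPolynomial (Fin (N a)) ℤ)
    (S : α → Set Pt) : Prop where
  df : Df n₀ S
  hm : CHF m
  hmb : PBd m
  hn : CHF n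
  hnb : PBd n
  he : CHF e
  hM : CHF M
  hF : MR0 (R := fun a => MvPolynomial (Fin (N a)) ℤ) F
  ng : NG N fun a z => zev (N a) z (F a)
  le₀ : ∀ a, m a ≤ n₀ a
  le₁ : ∀ a, n₀ a ≤ N a
  le₂ : ∀ a, N a + 2 ≤ n a
  cover : ∀ a y, ∃ z, agree (n₀ a) z y ∧ zev (N a) z (F a) = 0
  lc : ∀ a, LC (fun z => zev (N a) z (F a)) (S a)
  odd : ∀ a, Odd (e a)
  deg : ∀ a (y : Pt), (split (N a) (m a) (n a) (F a) y).totalDegree ≤ e a
  bd : ∀ a y, Bd (chi (N a) (m a) (n a) (e a) (F a) y) (M a)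

theorem Df.ctx {n₀ m : α → ℕ} {S : α → Set Pt} (h : Df n₀ S) (hm : CHF m)
    (hle : ∀ a, m a ≤ n₀ a) : ∃ n N e M F, Ctx n₀ m n N e M F S := by
  obtain ⟨N, f, hf, h1, h2, h3⟩ := h.strat
  obtain ⟨F, hF, hF'⟩ := hf.sg
  obtain rfl : f = fun a z => zev (N a) z (F a ()) :=
    funext fun a => funext fun z => hF' a () z trivial
  have hN := hf.chf
  have hNb := hf.pbd
  have hn : CHF fun a => N a + 2 := by fun_prop
  obtain ⟨E, hE, hE'⟩ := (SG_split (ev := rev m) hN hNb hm hn (F := fun a => F a ()) hF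
    (y := fun _ i z => z i) (SG.var hm (by fun_prop) fun _ _ h => h)).totalDegree
  have he : CHF fun a => 2 * E a + 1 := by fun_prop
  obtain ⟨M, hM, hM'⟩ := (SG_chi hN hNb hm hn (by fun_prop) he hm (fun _ => le_rfl)
    (F := fun a => F a ()) hF).natDegree₂
  exact ⟨_, N, _, M, fun a => F a (), h, hm, h.pbd.mono hle, hn, by fun_prop, he, hM, hF, hf, hle,
    h1, fun _ => le_rfl, h2, h3, fun a => odd_two_mul_add_one _,
    fun a y => (hE' a () y trivial).trans (by omega), fun a y => hM' a () y trivial⟩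

namespace Ctx

variable {n₀ m n N e M : α → ℕ} {F : (a : α) → MvPolynomial (Fin (N a)) ℤ} {S : α → Set Pt}
  (h : Ctx n₀ m n N e M F S)
include h

theorem chi_ne (a : α) (y : Pt) : chi (N a) (m a) (n a) (e a) (F a) y ≠ 0 :=
  chi_ne_zero (h.odd a).pos (h.deg a y)

theorem psi_ne (a : α) (y : Pt) :
    Polynomial.X * (chi (N a) (m a) (n a) (e a) (F a) y).leadingCoeff ≠ 0 :=
  mul_ne_zero Polynomial.X_ne_zero (Polynomial.leadingCoeff_ne_zero.2 (h.chi_ne a y))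

theorem finite (b : ℕ) (a : α) (y : Pt) :
    (GG b (N a) (m a) (n a) (e a) (F a) (S a) y).Finite :=
  ((Set.Finite.pi' fun _ => Polynomial.finite_setOfPred_isRoot (h.psi_ne a y)).subset
    fun _ hx => hx.1).image _

theorem closed (a : α) (y : Pt) (p : Prop) : IsClosed {x : Fin (n a) → ℝ |
    (join (m a) y x ∈ S a ↔ p) ∧ zev (N a) (join (m a) y x) (F a) = 0} := by
  refine IsSeqClosed.isClosed fun x x₀ hx h0 => ?_
  have h1 := tendsto_join (m a) (tendsto_const_nhds (x := y)) h0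
  obtain ⟨k, hk⟩ := (h.lc a _ _ h1 (.of_forall fun k => (hx k).2)).exists
  exact ⟨hk.symm.trans (hx k).1, zero_of_tendsto (h.ng.cont a) h1 (.of_forall fun k => (hx k).2)⟩

theorem sample {a : α} {y z : Pt} (hz : agree (m a) z y) {A : Set (Fin (n a) → ℝ)}
    (hA : IsClosed (A ∩ {x | zev (N a) (join (m a) y x) (F a) = 0}))
    (hB : IsClosed (Aᶜ ∩ {x | zev (N a) (join (m a) y x) (F a) = 0}))
    (h0 : ∀ x, agree (n₀ a) (join (m a) y x) z → x ∈ A) :
    ∃ x ∈ A, (∀ i, (Polynomial.X * (chi (N a) (m a) (n a) (e a) (F a) y).leadingCoeff).eval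
      (x i) = 0) ∧ zev (N a) (join (m a) y x) (F a) = 0 := by
  obtain ⟨w, h1, h2⟩ := h.cover a z
  have h3 := (agree_join (n := n a) ((h1.mono (h.le₀ a)).trans hz).symm).mono
    (show N a ≤ _ by have := h.le₂ a; omega)
  simp only [← eval_split] at hA hB
  obtain ⟨x, h4, h5, h6⟩ := N337A.sample (h.odd a) (fun x => by
    rw [eval_split]; exact h.ng.nn a _) hA hB (h0 _ ((h3.mono (h.le₁ a)).trans h1))
    (by rw [eval_split]; exact (h.ng.dep a h3).trans h2) _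
    fun t x hx => chi_root (h.odd a).pos (h.deg a y) t x hx
  exact ⟨x, h4, fun i => by simp [h6], by rwa [eval_split] at h5⟩

theorem nonempty (b : ℕ) (a : α) (y : Pt) :
    (GG b (N a) (m a) (n a) (e a) (F a) (S a) y).Nonempty ↔ ∃ z, agree (m a) z y ∧ z ∈ S a := by
  refine ⟨fun ⟨_, x, hx, _⟩ => ⟨_, fun i hi => if_pos hi, hx.2.2⟩, fun ⟨z, h1, h2⟩ => ?_⟩
  obtain ⟨x, h3, h4, h5⟩ := h.sample h1 (A := {x | join (m a) y x ∈ S a})
    (by simpa [Set.ofPred_and] using h.closed a y True)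
    (by simpa [Set.ofPred_and, Set.compl_ofPred] using h.closed a y False)
    fun x hx => (h.df.dep a _ _ hx).2 h2
  exact ⟨_, x, ⟨h4, h5, h3⟩, rfl⟩

theorem eq_of_finite {b : ℕ} {a : α} (hb : n₀ a = m a + b) (y : Pt)
    (hf : {w : Fin b → ℝ | join (m a) y w ∈ S a}.Finite) :
    GG b (N a) (m a) (n a) (e a) (F a) (S a) y = {w | join (m a) y w ∈ S a} := by
  have h1 : ∀ x : Fin (n a) → ℝ, join (m a) y (fun i : Fin b => P337.ext x i) ∈ S a ↔
      join (m a) y x ∈ S a := fun x => h.df.dep a _ _ (hb ▸ agree_cut _ _ _ _)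
  refine Set.Subset.antisymm (fun _ ⟨x, hx, h2⟩ => h2 ▸ (h1 x).2 hx.2.2) fun w hw => ?_
  have hc : Continuous fun (x : Fin (n a) → ℝ) (i : Fin b) => P337.ext x i := by
    refine continuous_pi fun i => ?_
    unfold P337.ext
    split_ifs <;> fun_prop
  have hZ : IsClosed {x : Fin (n a) → ℝ | zev (N a) (join (m a) y x) (F a) = 0} := by
    simpa only [← eval_split] using isClosed_eq (MvPolynomial.continuous_eval _) continuous_const
  obtain ⟨x, h3, h4, h5⟩ := h.sample (z := join (m a) y w) (fun i hi => if_pos hi)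
    (A := {x | (fun i : Fin b => P337.ext x i) = w})
    ((isClosed_eq hc continuous_const).inter hZ) (by
      convert (h.closed a y False).union
        ((((hf.subset (Set.sdiff_subset (t := {w}))).isClosed).preimage hc).inter hZ) using 1
      ext x
      simp only [Set.mem_inter_iff, Set.mem_compl_iff, Set.mem_ofPred_eq, Set.mem_union,
        Set.mem_preimage, Set.mem_sdiff, Set.mem_singleton_iff, iff_false, ← h1]
      refine ⟨fun ⟨h2, h3⟩ => (em _).elim (fun h4 => .inr ⟨⟨h4, h2⟩, h3⟩) fun h4 => .inl ⟨h4, h3⟩,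
        fun h2 => h2.elim (fun h3 => ⟨fun h4 => h3.1 (h4 ▸ hw), h3.2⟩) fun h3 => ⟨h3.1.2, h3.2⟩⟩)
    fun x hx => funext fun i => by
      simpa only [join_add, ext_val] using hx (m a + i) (by have := i.2; omega)
  exact ⟨x, ⟨h4, h5, (h1 x).1 (h3 ▸ hw)⟩, h3⟩

theorem sg_chi {γ : Type} [Enc γ] {u : γ → α} (hu : CHF u) {K : γ → ℕ} (hK : CHF K)
    (hle : ∀ c, m (u c) ≤ K c) : SG0 (pev (pev (rev K))) fun c z =>
      chi (N (u c)) (m (u c)) (n (u c)) (e (u c)) (F (u c)) z :=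
  SG_chi (h.ng.chf.comp hu) (PBd_comp h.ng.pbd hu) (h.hm.comp hu) (h.hn.comp hu)
    (PBd_comp h.hnb hu) (h.he.comp hu) hK hle (h.hF.comp hu (v := fun _ _ => ()) (CHF.const _))

theorem strat (b : α → ℕ) (θ : α → ℕ → Prop) :
    Strat m fun a => {y | θ a (GG (b a) (N a) (m a) (n a) (e a) (F a) (S a) y).ncard} := by
  have hm := h.hm; have hn := h.hn; have he := h.he; have hM := h.hM
  have hmb := h.hmb; have hnb := h.hnb
  let g : α → ℕ → ℕ → ℕ := fun a s i => (digs ((M a + 1) ^ n a + M a + 1) 4 s).getD i 0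
  have hg : ∀ i, CHF fun x : α × ℕ => g x.1 x.2 i := fun i => by unfold g; fun_prop
  let χ : α → Pt → ℝ[X][X] := fun a => chi (N a) (m a) (n a) (e a) (F a)
  let aa : α → ℕ → Pt → Pt := fun a s z j => z (m a) * ((χ a z).coeff (g a s 0)).coeff j
  let U : (a : α) → ℕ → Pt → MvPolynomial (Fin (n a)) ℝ → ℕ → ℝ := fun a d v =>
    EE (d + 1) ((M a + 1) ^ n a * e a) fun i : Fin (n a) => gr d (n a) v i
  have hK : CHF fun x : α × ℕ => m x.1 + 3 := by fun_prop
  have h1 := h.sg_chi (u := fun x : α × ℕ => x.1) (by fun_prop) hK fun _ => Nat.le_add_right _ _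
  have h2 : SG (rev fun x : α × ℕ => m x.1 + 3) (fun _ (_ : ℕ) => True)
      fun x j z => aa x.1 x.2 z j :=
    (SG.var hK (by fun_prop) fun _ _ _ => by omega).mul ((h1.inst.polyCoeff
      ((hg 0).comp CHF.id.fst)).polyCoeff (by fun_prop))
  have h3 : SG (mev (fun x : α × ℕ => n x.1) (rev fun x : α × ℕ => m x.1 + 3))
      (fun x (i : ℕ) => i < n x.1) fun x i z => gr (g x.1 x.2 1) (n x.1) (aa x.1 x.2 z) i :=
    (SG.sum_range ((hg 1).comp CHF.id.fst) ((h2.reindex (fun _ (y : ℕ × ℕ) => y.2) (by fun_prop)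
      fun _ _ _ => trivial).mvC.mul ((SG.mvX (by fun_prop) (by fun_prop)).pow (by fun_prop)
        (EB.of_le _ (hg 1) fun _ _ h => h.2)))).neg
  have h4 : ∀ H : (x : α × ℕ) → Pt → MvPolynomial (Fin (n x.1)) ℝ,
      SG0 (mev (fun x : α × ℕ => n x.1) (rev fun x : α × ℕ => m x.1 + 3)) H →
      SG (rev fun x : α × ℕ => m x.1 + 3) (fun _ (_ : ℕ) => True)
        fun x c z => U x.1 (g x.1 x.2 1) (aa x.1 x.2 z) (H x z) c := fun H hH =>
    SG.EE (by fun_prop) (by fun_prop) ((hg 1).add (CHF.const 1)) (by fun_prop) h3 hH.inst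
      (by fun_prop)
  have hD : CHF fun x : α × ℕ => (g x.1 x.2 1 + 1) ^ n x.1 :=
    ((hg 1).add (CHF.const 1)).pow (by fun_prop) (by fun_prop)
  have hv : ∀ j < 3, SG0 (rev fun x : α × ℕ => m x.1 + 3) fun x z => z (m x.1 + j) :=
    fun j hj => SG.var hK (by fun_prop) fun _ _ _ => by omega
  have hX : SG0 (mev (fun x : α × ℕ => n x.1) (rev fun x : α × ℕ => m x.1 + 3))
      fun x _ => XN (n x.1) ℝ 0 - XN (n x.1) ℝ 1 :=
    (SG.mvX (by fun_prop) (by fun_prop)).sub (SG.mvX (by fun_prop) (by fun_prop))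
  have hS : SG0 (mev (fun x : α × ℕ => n x.1) (rev fun x : α × ℕ => m x.1 + 3))
      fun x z => split (N x.1) (m x.1) (n x.1) (F x.1) z :=
    SG_split (h.ng.chf.comp CHF.id.fst) (PBd_comp h.ng.pbd CHF.id.fst) (by fun_prop) (by fun_prop)
      (h.hF.comp CHF.id.fst (v := fun _ _ => ()) (CHF.const _)) (y := fun _ i z => z i)
      (SG.var hK (by fun_prop) fun _ _ _ => by omega)
  let Q : α × ℕ → Pt → ℝ := fun x z =>
      q1 (χ x.1 z) (M x.1) (g x.1 x.2 0) (g x.1 x.2 1) (z (m x.1)) +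
      (tq (U x.1 (g x.1 x.2 1) (aa x.1 x.2 z) (XN (n x.1) ℝ 0 - XN (n x.1) ℝ 1))
        ((g x.1 x.2 1 + 1) ^ n x.1) (g x.1 x.2 2) (z (m x.1 + 1)) +
      tq (U x.1 (g x.1 x.2 1) (aa x.1 x.2 z) (split (N x.1) (m x.1) (n x.1) (F x.1) z))
        ((g x.1 x.2 1 + 1) ^ n x.1) (g x.1 x.2 3) (z (m x.1 + 2)))
  have hQ : NG (fun x : α × ℕ => m x.1 + 3) Q :=
    ⟨hK, by fun_prop, (SG_q1 h1 (hM.comp CHF.id.fst) (hg 0) (hg 1) (hv 0 (by omega))).add
      ((SG_tq (h4 _ hX) hD (hg 2) (hv 1 (by omega))).add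
        (SG_tq (h4 _ hS) hD (hg 3) (hv 2 (by omega)))),
      fun _ _ => add_nonneg (q1_nonneg ..) (add_nonneg (tq_nonneg ..) (tq_nonneg ..))⟩
  have h5 : ∀ a d, d ≤ M a → (d + 1) ^ n a ≤ (M a + 1) ^ n a := fun a d hd =>
    Nat.pow_le_pow_left (by omega) _
  have h6 : ∀ a d, d ≤ M a → (d + 1) ^ n a ≤ (M a + 1) ^ n a * e a := fun a d hd =>
    (h5 a d hd).trans (Nat.le_mul_of_pos_right _ (h.odd a).pos)
  refine Strat.union (J := fun a => ((M a + 1) ^ n a + M a + 1) ^ 4) (hm.add (CHF.const 3))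
    (by fun_prop) (by fun_prop) hQ (fun _ => Nat.le_add_right _ _)
    (fun a y => ?_) fun a s => LC.of_exists fun z z₀ hz h0 => ?_
  · have h7 : (χ a y).leadingCoeff.natDegree ≤ M a := (h.bd a y).2 _
    let v : Pt := fun j => (χ a y).leadingCoeff.leadingCoeff⁻¹ * (χ a y).leadingCoeff.coeff j
    obtain ⟨c₁, h8⟩ := exists_top v _ (deg_X01 (n a) (h6 a _ h7))
    obtain ⟨c₂, h9⟩ := exists_top v _ (Nat.mul_le_mul (h5 a _ h7) (h.deg a y))
    obtain ⟨s, hs, h10⟩ := exists_digs (B := (M a + 1) ^ n a + M a + 1) (k := 4)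
      (l := [(χ a y).natDegree, (χ a y).leadingCoeff.natDegree, c₁, c₂]) rfl (by
        have := (h.bd a y).1
        have := h8.1.trans (h5 a _ h7)
        have := h9.1.trans (h5 a _ h7)
        simp only [List.mem_cons, List.not_mem_nil, or_false, χ] at *
        omega)
    let z : Pt := fun i => if i < m a then y i else if i = m a then
      (χ a y).leadingCoeff.leadingCoeff⁻¹ else if i = m a + 1 then
        (U a (χ a y).leadingCoeff.natDegree v (XN (n a) ℝ 0 - XN (n a) ℝ 1) c₁)⁻¹ else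
          (U a (χ a y).leadingCoeff.natDegree v (split (N a) (m a) (n a) (F a) y) c₂)⁻¹
    have h11 : agree (m a) z y := fun i hi => if_pos hi
    have h12 : aa a s z = v := by simp [aa, g, h10, z, v, χ, chi_congr _ h11]
    refine ⟨s, hs, z, h11, ?_⟩
    simp only [Q, h12, g, h10, χ, chi_congr _ h11, split_congr _ h11]
    simp [z, q1_self (h.bd a y) (h.chi_ne a y), U, tq_self h8, tq_self h9, χ]
  · have h7 : ∀ z, Q (a, s) z = 0 → Cnt (N a) (m a) (n a) (g a s 1) ((M a + 1) ^ n a * e a) (g a s 2)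
        (g a s 3) (F a) (aa a s z) z ∧ g a s 1 ≤ M a ∧
        GS (N a) (m a) (n a) (g a s 1) (b a) (F a) (S a) (aa a s z) z =
          GG (b a) (N a) (m a) (n a) (e a) (F a) (S a) z := fun z hz => by
      dsimp only [Q] at hz
      rw [add_eq_zero_iff_of_nonneg (q1_nonneg ..) (add_nonneg (tq_nonneg ..) (tq_nonneg ..)),
        add_eq_zero_iff_of_nonneg (tq_nonneg ..) (tq_nonneg ..)] at hz
      obtain ⟨-, k1, k2⟩ := q1_zero (h.bd a z) hz.1
      exact ⟨⟨Nat.mul_le_mul (h5 a _ k1) (h.deg a z), tq_zero hz.2.1, tq_zero hz.2.2⟩, k1,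
        by simp only [GS, GG, GX, aa, χ, k2]⟩
    have h8 := h7 z₀ (zero_of_tendsto (hQ.cont (a, s)) hz (.of_forall h0))
    obtain ⟨k, hk⟩ := delin (b a) (le_add_self.trans (h.le₂ a)) (h6 a _ h8.2.1) (h.lc a)
      (a := fun k => aa a s (z k))
      (tendsto_pi_nhds.2 fun j => ((h2.continuous (a := (a, s)) (b := j) trivial).tendsto _).comp hz)
      hz (fun k => (h7 _ (h0 k)).1) h8.1
    exact ⟨k, by rw [Set.mem_ofPred_eq, Set.mem_ofPred_eq, ← (h7 _ (h0 k)).2.2, ← h8.2.2, hk]⟩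

theorem codes : ∃ (K J : α → ℕ) (E : α × ℕ → Pt → ℝ), CHF J ∧ NG (fun x : α × ℕ => K x.1) E ∧
    (∀ a, m a + n a ≤ K a) ∧ (∀ a s z, E (a, s) z = 0 →
      (fun i : Fin (n a) => z (m a + i)) ∈ GX (N a) (m a) (n a) (e a) (F a) Set.univ z) ∧
    ∀ a y, ∀ x ∈ GX (N a) (m a) (n a) (e a) (F a) Set.univ y, ∃ s < J a,
      (∃ z, agree (m a + n a) z (join (m a) y x) ∧ E (a, s) z = 0) ∧
      ∀ z, agree (m a) z y → E (a, s) z = 0 → agree (m a + n a) z (join (m a) y x) := by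
  have hm := h.hm; have hn := h.hn; have hM := h.hM
  have hmb := h.hmb; have hnb := h.hnb
  have hN : ∀ a, N a ≤ m a + n a := fun a => by have := h.le₂ a; omega
  have hn0 : ∀ a, 0 < n a := fun a => by have := h.le₂ a; omega
  obtain ⟨t, ht, htb, ht'⟩ : ∃ t : α → ℕ, CHF t ∧ PBd t ∧ ∀ a, n a * (M a + 1 + 1) < 2 ^ t a :=
    ⟨fun a => (n a * (M a + 1 + 1)).size, by fun_prop, by fun_prop, fun a => Nat.lt_size_self _⟩
  obtain ⟨L, hL, hLb, hL'⟩ : ∃ L : α → ℕ, CHF L ∧ PBd L ∧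
      ∀ a, L a = 8 * n a * (t a + 2) * t a := ⟨_, by fun_prop, by fun_prop, fun _ => rfl⟩
  obtain ⟨W, hW, hW'⟩ : ∃ W : α → ℕ, CHF W ∧ ∀ a, W a = 2 ^ (2 * t a + 3) :=
    ⟨_, by fun_prop, fun _ => rfl⟩
  let g : α × ℕ → ℕ → ℕ := fun x i => (digs (W x.1) (8 * L x.1 + 2) x.2).getD i 0
  have hg : CHF fun x : (α × ℕ) × ℕ => g x.1 x.2 := by unfold g; fun_prop
  have hg' : ∀ i, CHF fun x => g x i := fun i => by unfold g; fun_prop
  let χ : α → Pt → ℝ[X][X] := fun a => chi (N a) (m a) (n a) (e a) (F a)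
  let E : α × ℕ → Pt → ℝ := fun x z => zev (N x.1) z (F x.1) +
    (q1 (χ x.1 z) (M x.1) (g x 0) (g x 1) (z (m x.1 + n x.1)) +
    (∑ i ∈ range (n x.1), (Polynomial.X * (χ x.1 z).coeff (g x 0)).eval (z (m x.1 + i)) ^ 2 +
    ∑ r ∈ range (L x.1), test (Polynomial.X * (χ x.1 z).coeff (g x 0)) (fun q => g x (8 * r + q + 2))
      (z (m x.1 + g x (8 * r + 0 + 2) % n x.1)) (z (m x.1 + n x.1 + 1 + r))))
  have hE : ∀ x z, E x z = 0 ↔ zev (N x.1) z (F x.1) = 0 ∧
      q1 (χ x.1 z) (M x.1) (g x 0) (g x 1) (z (m x.1 + n x.1)) = 0 ∧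
      (∀ i < n x.1, (Polynomial.X * (χ x.1 z).coeff (g x 0)).eval (z (m x.1 + i)) = 0) ∧
      ∀ r < L x.1, test (Polynomial.X * (χ x.1 z).coeff (g x 0)) (fun q => g x (8 * r + q + 2))
        (z (m x.1 + g x (8 * r + 0 + 2) % n x.1)) (z (m x.1 + n x.1 + 1 + r)) = 0 := by
    intro x z
    rw [add_eq_zero_iff_of_nonneg (h.ng.nn _ _) (add_nonneg (q1_nonneg ..) (add_nonneg
      (sum_nonneg fun _ _ => sq_nonneg _) (sum_nonneg fun _ _ => test_nonneg ..))),
      add_eq_zero_iff_of_nonneg (q1_nonneg ..) (add_nonneg (sum_nonneg fun _ _ => sq_nonneg _)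
        (sum_nonneg fun _ _ => test_nonneg ..)), add_eq_zero_iff_of_nonneg
      (sum_nonneg fun _ _ => sq_nonneg _) (sum_nonneg fun _ _ => test_nonneg ..),
      sum_eq_zero_iff_of_nonneg fun _ _ => sq_nonneg _,
      sum_eq_zero_iff_of_nonneg fun _ _ => test_nonneg ..]
    simp only [mem_range, pow_eq_zero_iff two_ne_zero]
  have hK : CHF fun x : α × ℕ => m x.1 + n x.1 + 1 + L x.1 := by fun_prop
  have h1 := h.sg_chi (u := fun x : α × ℕ => x.1) (by fun_prop) hK fun _ => by omega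
  have h2 : SG0 (pev (rev fun x : α × ℕ => m x.1 + n x.1 + 1 + L x.1))
      fun x z => Polynomial.X * (χ x.1 z).coeff (g x 0) :=
    SG.polyX.mul (h1.polyCoeff ((hg' 0).comp CHF.id.fst))
  have k1 : SG0 (rev fun x : α × ℕ => m x.1 + n x.1 + 1 + L x.1)
      fun x z => zev (N x.1) z (F x.1) :=
    ((h.ng.comp CHF.id.fst).more hK (by fun_prop) fun x => (hN x.1).trans (by omega)).sg
  have k2 : SG0 (rev fun x : α × ℕ => m x.1 + n x.1 + 1 + L x.1)
      fun x z => q1 (χ x.1 z) (M x.1) (g x 0) (g x 1) (z (m x.1 + n x.1)) :=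
    SG_q1 h1 (by fun_prop) (hg' 0) (hg' 1) (SG.var hK (by fun_prop) fun _ _ _ => by omega)
  have k3 : SG0 (rev fun x : α × ℕ => m x.1 + n x.1 + 1 + L x.1) fun x z =>
      ∑ i ∈ range (n x.1), (Polynomial.X * (χ x.1 z).coeff (g x 0)).eval (z (m x.1 + i)) ^ 2 :=
    SG.sum_range (by fun_prop) (h2.inst.polyEval
      (SG.var hK (by fun_prop) fun _ _ h => by have := h.2; omega)).sq
  have k4 : SG0 (rev fun x : α × ℕ => m x.1 + n x.1 + 1 + L x.1) fun x z =>
      ∑ r ∈ range (L x.1), test (Polynomial.X * (χ x.1 z).coeff (g x 0))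
        (fun q => g x (8 * r + q + 2)) (z (m x.1 + g x (8 * r + 0 + 2) % n x.1))
          (z (m x.1 + n x.1 + 1 + r)) := by
    refine SG.sum_range (by fun_prop) (SG_test h2
      (c := fun x (y : Unit × ℕ) q => g x (8 * y.2 + q + 2))
      (fun q => hg.comp (f := fun x : (α × ℕ) × Unit × ℕ => (x.1, 8 * x.2.2 + q + 2))
        (by fun_prop)) (EB.of_le (fun x => W x.1) (by fun_prop) fun x y hy => ?_)
      (SG.var hK ((hm.comp CHF.id.fst.fst).add ((hg.comp
        (f := fun x : (α × ℕ) × Unit × ℕ => (x.1, 8 * x.2.2 + 0 + 2)) (by fun_prop)).mod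
          (hn.comp CHF.id.fst.fst))) fun x _ _ => ?_)
      (SG.var hK (by fun_prop) fun _ _ h => by have := h.2; omega))
    · have := hy.2
      exact (getD_digs _ _ _ (by omega)).trans_lt (Nat.mod_lt _ (by rw [hW']; positivity))
    · exact (Nat.add_lt_add_left (Nat.mod_lt _ (hn0 _)) _).trans_le (by omega)
  have h3 : SG0 (rev fun x : α × ℕ => m x.1 + n x.1 + 1 + L x.1) E := k1.add (k2.add (k3.add k4))
  refine ⟨fun a => m a + n a + 1 + L a, fun a => W a ^ (8 * L a + 2), E, by fun_prop,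
    ⟨hK, by fun_prop, h3, fun _ _ => add_nonneg (h.ng.nn _ _) (add_nonneg (q1_nonneg ..)
      (add_nonneg (sum_nonneg fun _ _ => sq_nonneg _) (sum_nonneg fun _ _ => test_nonneg ..)))⟩,
    fun _ => by dsimp only; omega, fun a s z hz => ?_, fun a y x hx => ?_⟩
  · obtain ⟨h4, h5, h6, -⟩ := (hE _ _).1 hz
    exact ⟨fun i => (q1_zero (h.bd a z) h5).1 ▸ h6 i i.2,
      (h.ng.dep a ((agree_join fun _ _ => rfl).mono (hN a))).trans h4, trivial⟩
  obtain ⟨c, c1, c2, ⟨u, c3⟩, c4⟩ := isolate (h.psi_ne a y) (hn0 a) (Polynomial.natDegree_mul_le.trans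
    (add_le_add Polynomial.natDegree_X_le ((h.bd a y).2 _)) |>.trans (add_comm _ _).le) (ht' a)
    (x := P337.ext x) fun i hi => by simpa only [ext_val x ⟨i, hi⟩] using hx.1 ⟨i, hi⟩
  have h4 : M a < W a := by
    have := ht' a
    have := Nat.pow_le_pow_right (n := 2) two_pos (show t a ≤ 2 * t a + 3 by omega)
    have := Nat.le_mul_of_pos_left (M a + 1 + 1) (hn0 a)
    rw [hW']
    omega
  obtain ⟨s, hs, h5⟩ := exists_digs (B := W a) (k := 8 * L a + 2) (l := (χ a y).natDegree ::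
    (χ a y).leadingCoeff.natDegree :: (List.range (8 * L a)).map fun i => c (i / 8) (i % 8))
    (by simp) (by
      simp only [List.forall_mem_cons, List.forall_mem_map]
      exact ⟨(h.bd a y).1.trans_lt h4, ((h.bd a y).2 _).trans_lt h4, fun _ _ => hW' a ▸ c1 _ _⟩)
  have h6 : ∀ r < L a, ∀ q < 8, g (a, s) (8 * r + q + 2) = c r q := fun r hr q hq => by
    simp [g, h5, List.getD_eq_getElem?_getD, show 8 * r + q < 8 * L a by omega,
      show (8 * r + q) / 8 = r by omega, show (8 * r + q) % 8 = q by omega]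
  have h7 : ∀ r < L a, ∀ ψ v w, test ψ (fun q => g (a, s) (8 * r + q + 2)) v w = test ψ (c r) v w :=
    fun r hr ψ v w => by
      simp only [test, hp, h6 r hr 1 (by omega), h6 r hr 2 (by omega), h6 r hr 3 (by omega),
        h6 r hr 4 (by omega), h6 r hr 5 (by omega), h6 r hr 6 (by omega), h6 r hr 7 (by omega)]
  have h8 : g (a, s) 0 = (χ a y).natDegree ∧ g (a, s) 1 = (χ a y).leadingCoeff.natDegree := by
    simp [g, h5]
  have h9 : ∀ z, agree (m a) z y → (E (a, s) z = 0 ↔ zev (N a) z (F a) = 0 ∧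
      q1 (χ a y) (M a) (χ a y).natDegree (χ a y).leadingCoeff.natDegree (z (m a + n a)) = 0 ∧
      (∀ i < n a, (Polynomial.X * (χ a y).leadingCoeff).eval (z (m a + i)) = 0) ∧
      ∀ r < L a, test (Polynomial.X * (χ a y).leadingCoeff) (c r) (z (m a + c r 0))
        (z (m a + n a + 1 + r)) = 0) := fun z hz => by
    rw [hE, h8.1, h8.2, show χ a z = χ a y from chi_congr _ hz]
    refine and_congr_right' (and_congr_right' (and_congr_right' (forall₂_congr fun r hr => ?_)))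
    rw [h7 r hr, h6 r hr 0 (by omega), Nat.mod_eq_of_lt (c2 r)]
    rfl
  refine ⟨s, hs, ?_, fun z h10 hz i hi => ?_⟩
  · let z : Pt := fun i => if i < m a + n a then join (m a) y x i else if i = m a + n a then
      (χ a y).leadingCoeff.leadingCoeff⁻¹ else u (i - (m a + n a + 1))
    have h10 : agree (m a + n a) z (join (m a) y x) := fun i hi => if_pos hi
    have h11 : ∀ i < n a, z (m a + i) = P337.ext x i := fun i hi =>
      (h10 _ (by omega)).trans (join_add ..)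
    refine ⟨z, h10, (h9 z ((h10.mono (by omega)).trans fun i hi => if_pos hi)).2
      ⟨(h.ng.dep a (h10.mono (hN a))).trans hx.2.1, ?_, fun i hi => ?_, fun r _ => ?_⟩⟩
    · simpa [z] using q1_self (h.bd a y) (h.chi_ne a y)
    · simpa only [h11 i hi, ext_val x ⟨i, hi⟩] using hx.1 ⟨i, hi⟩
    · rw [h11 _ (c2 r), ← c3 r]
      congr 1
      simp [z, show ¬ m a + n a + 1 + r < m a + n a by omega,
        show m a + n a + 1 + r ≠ m a + n a by omega]
  · obtain ⟨-, -, h11, h12⟩ := (h9 z h10).1 hz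
    by_cases h13 : i < m a
    · exact (h10 i h13).trans (if_pos h13).symm
    · obtain ⟨j, rfl⟩ := Nat.exists_eq_add_of_le (not_lt.1 h13)
      exact (c4 (fun j => z (m a + j)) _ h11 (hL' a ▸ h12) j (by omega)).trans (join_add ..).symm

theorem dcd {b : α → ℕ} {θ : α → ℕ → Prop} (hb : CHF b) (hθ : CHP fun x : α × ℕ => θ x.1 x.2)
    (hbn : ∀ a, b a ≤ n a) :
    Dcd m fun a => {y | θ a (GG (b a) (N a) (m a) (n a) (e a) (F a) (S a) y).ncard} := by
  classical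
  intro γ _ u N' f hu hf
  have hm := h.hm; have hn := h.hn
  have hN : ∀ a, n₀ a ≤ m a + n a := fun a => by have := h.le₂ a; have := h.le₁ a; omega
  obtain ⟨K, J, E, hJ, hE, hK, e1, e2⟩ := h.codes
  let D : γ × ℕ → Pt → ℝ := fun x => glue (m (u x.1)) (K (u x.1)) (f x.1) (E (u x.1, x.2))
  have hD : NG (fun x : γ × ℕ => K (u x.1) + N' x.1) D :=
    (hf.comp CHF.id.fst).glue (hE.comp (u := fun x : γ × ℕ => (u x.1, x.2)) (by fun_prop))
      (m := fun x => m (u x.1)) (by fun_prop)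
  obtain ⟨r, hr, hr'⟩ := h.df.dcd (γ × ℕ) (fun x => u x.1) _ D (by fun_prop) hD
  let p : γ × ℕ → Prop := fun x => (∃ v, Pin (m (u x.1) + n (u x.1)) (D x) v) ∧ r x
  have hp : CHP p := (hD.uq (by fun_prop) fun x => (hK _).trans (Nat.le_add_right _ _)).and hr
  let q : (γ × ℕ) × ℕ → Prop := fun x => ∃ z w, D x.1 z = 0 ∧ D (x.1.1, x.2) w = 0 ∧
    ∀ i < b (u x.1.1), z (m (u x.1.1) + i) = w (m (u x.1.1) + i)
  have hq : CHP q := NG.same (hD.comp CHF.id.fst)
    (hD.comp (u := fun x : (γ × ℕ) × ℕ => (x.1.1, x.2)) (by fun_prop)) (by fun_prop) (by fun_prop)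
    fun x => ((Nat.add_le_add_left (hbn _) _).trans (hK _)).trans (Nat.le_add_right _ _)
  refine ⟨fun c => θ (u c) ((range (J (u c))).filter fun s =>
    p (c, s) ∧ ∀ t < s, p (c, t) → ¬ q ((c, s), t)).card, hθ.comp (hu.pair (CHF.card_filter
      (hp.and (CHP.forall_lt (p := fun (x : γ × ℕ) t => p (x.1, t) → ¬ q (x, t))
        ((hp.comp (f := fun x : (γ × ℕ) × ℕ => (x.1.1, x.2)) (by fun_prop)).imp hq.not)
        CHF.id.snd)) (hJ.comp hu))), fun c y hy => ?_⟩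
  let g : ℕ → Fin (b (u c)) → ℝ := fun s i =>
    Classical.epsilon (fun z => D (c, s) z = 0) (m (u c) + i)
  have h1 : ∀ s z, p (c, s) → D (c, s) z = 0 → g s = fun i : Fin (b (u c)) => z (m (u c) + i) := by
    rintro s z ⟨⟨v, hv⟩, -⟩ hz
    exact funext fun i => ((hv.2 _ (Classical.epsilon_spec hv.1)).trans (hv.2 z hz).symm) _
      (Nat.add_lt_add_left (i.2.trans_le (hbn _)) _)
  have h2 : ∀ s z, D (c, s) z = 0 → agree (m (u c)) z y ∧ E (u c, s) z = 0 := fun s z hz => by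
    have := (add_eq_zero_iff_of_nonneg (hf.nn _ _) (hE.nn (u c, s) _)).1 hz
    exact ⟨(agree_sh _ _ _).symm.trans (hy.2 _ this.1), this.2⟩
  dsimp only
  rw [← ncard_eq_card _ (fun s => p (c, s)) (fun s t => q ((c, s), t)) g fun s t hs ht =>
    ⟨fun ⟨z, w, hz, hw, h3⟩ => by
      rw [h1 s z hs hz, h1 t w ht hw]
      exact funext fun i => h3 i i.2, fun h3 => by
      obtain ⟨_, ⟨z, hz⟩, -⟩ := hs.1
      obtain ⟨_, ⟨w, hw⟩, -⟩ := ht.1
      rw [h1 s z hs hz, h1 t w ht hw] at h3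
      exact ⟨z, w, hz, hw, fun i hi => congrFun h3 ⟨i, hi⟩⟩⟩]
  refine iff_of_eq (congrArg (fun G : Set _ => θ (u c) G.ncard) (Set.ext fun w => ⟨?_, ?_⟩))
  · rintro ⟨s, ⟨-, hs⟩, rfl⟩
    obtain ⟨v, ⟨z, hz⟩, hv⟩ := hs.1
    obtain ⟨h3, h4⟩ := h2 s z hz
    obtain ⟨h5, h6, -⟩ := e1 _ _ _ h4
    rw [chi_congr _ h3] at h5
    rw [join_congr h3] at h6
    refine ⟨_, ⟨h5, h6, (h.df.dep _ _ _ ((agree_join h3.symm).mono (hN _))).2 ((hr' (c, s) z
      ⟨⟨z, hz⟩, fun w hw => ((hv w hw).trans (hv z hz).symm).mono (hN _)⟩).1 hs.2)⟩, ?_⟩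
    rw [h1 s z hs hz]
    exact funext fun i => ext_val _ ⟨i, i.2.trans_le (hbn _)⟩
  · rintro ⟨x, hx, rfl⟩
    obtain ⟨s, hs, ⟨z, h3, h4⟩, h5⟩ := e2 (u c) y x ⟨hx.1, hx.2.1, trivial⟩
    obtain ⟨w, hw⟩ := hy.1
    obtain ⟨v, h6, -⟩ := hE.exists_glue (a := (u c, s)) (le_self_add.trans (hK _)) hw h4
      ((hy.2 w hw).trans ((h3.mono le_self_add).trans fun i hi => if_pos hi).symm)
    have h7 : Pin (m (u c) + n (u c)) (D (c, s)) (join (m (u c)) y x) :=
      ⟨⟨v, h6⟩, fun z hz => h5 z (h2 s z hz).1 (h2 s z hz).2⟩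
    have h8 : p (c, s) :=
      ⟨⟨_, h7⟩, (hr' (c, s) _ ⟨h7.1, fun z hz => (h7.2 z hz).mono (hN _)⟩).2 hx.2.2⟩
    refine ⟨s, ⟨hs, h8⟩, (h1 s v h8 h6).trans (funext fun i => ?_)⟩
    exact (h7.2 v h6 _ (Nat.add_lt_add_left (i.2.trans_le (hbn _)) _)).trans (join_add ..)

theorem grid {b : α → ℕ} {θ : α → ℕ → Prop} (hb : CHF b) (hθ : CHP fun x : α × ℕ => θ x.1 x.2)
    (hbn : ∀ a, b a ≤ n a) :
    Df m fun a => {y | θ a (GG (b a) (N a) (m a) (n a) (e a) (F a) (S a) y).ncard} :=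
  ⟨h.hm, h.hmb, fun a z w hz => by rw [Set.mem_ofPred_eq, Set.mem_ofPred_eq, GG_congr _ _ _ _ _ _ hz],
    h.strat b θ, h.dcd hb hθ hbn⟩

end Ctx

theorem Df.proj {n m : α → ℕ} {S : α → Set Pt} (h : Df n S) (hm : CHF m) (hle : ∀ a, m a ≤ n a) :
    Df m fun a => {y | ∃ z, agree (m a) z y ∧ z ∈ S a} := by
  obtain ⟨n, N, e, M, F, h1⟩ := h.ctx hm hle
  exact (h1.grid (CHF.const 0) (θ := fun _ k => 0 < k) (by fun_prop)
    fun _ => Nat.zero_le _).congr fun a y =>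
    (Set.ncard_pos (h1.finite 0 a y)).trans (h1.nonempty 0 a y)

/-- Counting quantifiers. -/
theorem Df.count {m b : α → ℕ} {θ : α → ℕ∞ → Prop} {S : α → Set Pt}
    (h : Df (fun a => m a + b a) S) (hm : CHF m) (hb : CHF b)
    (hθ : CHP fun x : α × ℕ => θ x.1 x.2) (hθ' : CHP fun a => θ a ⊤) :
    Df m fun a => {y | θ a {x : Fin (b a) → ℝ | join (m a) y x ∈ S a}.encard} := by
  obtain ⟨n, N, e, M, F, h1⟩ := h.ctx hm fun _ => Nat.le_add_right _ _
  have hM := h1.hM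
  have hK : CHF fun a => m a + b a + 1 := by fun_prop
  let χ : α → Pt → ℝ[X][X] := fun a => chi (N a) (m a) (n a) (e a) (F a)
  have h2 := h1.sg_chi CHF.id hK fun _ => by omega
  have h3 : SG (rev fun a => m a + b a + 1) (fun a l => l < 1) fun a (_ : ℕ) z =>
      ∏ k ∈ range (M a + 1), ∏ i ∈ range (b a), (q0 (χ a z) (M a) k (M a) +
        (z (m a + b a) * (Polynomial.X * (χ a z).coeff k).eval (z (m a + i)) - 1) ^ 2) :=
    SG.prod_range (by fun_prop) (EB.of_chf (hM.add (CHF.const 1))) (SG.prod_range (by fun_prop)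
      (EB.of_chf hb) ((SG_q0 h2 hM (by fun_prop) (by fun_prop)).add
        (((SG.var hK (by fun_prop) fun _ _ _ => by omega).mul
          ((SG.polyX.mul (h2.inst.polyCoeff (by fun_prop))).polyEval
            (SG.var hK (by fun_prop) fun _ _ h => by have := h.2; omega))).sub SG.one).sq))
  have h4 := ((h.bool2 (Df.signs hK (h.pbd.add (PBd.const 1)) (CHF.const 1) (PBd.const 1) h3
    (Φ := fun _ l => l = [0]) (CHP.eq (by fun_prop) (CHF.const _))) (fun _ => Nat.le_succ _)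
    (Φ := fun _ p q => p ∧ q) fun _ _ => CHP.const _).proj hm fun _ => by omega)
  have hbn : ∀ a, b a ≤ n a := fun a => by have := h1.le₁ a; have := h1.le₂ a; omega
  refine ((h1.grid hb (θ := fun a k => θ a k) hθ hbn).bool2 h4 (fun _ => le_rfl)
    (Φ := fun a p q => (¬ q → p) ∧ (q → θ a ⊤))
    fun _ _ => (CHP.const _).and ((CHP.const _).imp hθ')).congr fun a y => ?_
  simp only [Set.mem_ofPred_eq, List.range_one, List.map_cons, List.map_nil, List.cons.injEq,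
    and_true, sgc_eq_zero, prod_eq_zero_iff, mem_range, pow_eq_zero_iff two_ne_zero, sub_eq_zero,
    add_eq_zero_iff_of_nonneg (q0_nonneg ..) (sq_nonneg _), χ, q0_iff (h1.bd _ _)]
  by_cases hf : {x : Fin (b a) → ℝ | join (m a) y x ∈ S a}.Finite
  · rw [← hf.cast_ncard_eq, h1.eq_of_finite rfl y hf]
    refine (fun h5 => ⟨fun h => h.1 h5, fun h => ⟨fun _ => h, fun h6 => absurd h6 h5⟩⟩) ?_
    rintro ⟨z, h5, h6, k, -, i, hi, ⟨h7, -⟩, h8⟩
    have h9 := right_ne_zero_of_mul_eq_one h8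
    rw [coeff_eq_lead h7 fun h => h9 (by simp [h]), chi_congr _ h5] at h9
    obtain ⟨x, hx, h10⟩ := (h1.eq_of_finite rfl y hf).ge
      ((h.dep a _ _ (agree_join h5.symm)).2 h6)
    refine h9 ((congrArg (Polynomial.eval · _) ?_).trans (hx.1 ⟨i, hi.trans_le (hbn a)⟩))
    exact (congrFun h10 ⟨i, hi⟩).symm.trans (ext_val x ⟨i, hi.trans_le (hbn a)⟩)
  · rw [Set.Infinite.encard_eq hf]
    refine (fun h5 => ⟨fun h => h.2 h5, fun h => ⟨fun h6 => absurd h5 h6, fun _ => h⟩⟩) ?_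
    obtain ⟨x, hx, h5⟩ := Set.not_subset.1 fun h5 => hf ((Set.Finite.pi' fun _ =>
      Polynomial.finite_setOfPred_isRoot (h1.psi_ne a y)).subset h5)
    obtain ⟨i, hi⟩ := not_forall.1 h5
    let z := Function.update (join (m a) y x) (m a + b a)
      ((Polynomial.X * (χ a y).leadingCoeff).eval (x i))⁻¹
    have h6 : agree (m a + b a) z (join (m a) y x) := fun j hj => Function.update_of_ne hj.ne _ _
    have h7 : agree (m a) z y := (h6.mono le_self_add).trans fun j hj => if_pos hj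
    refine ⟨z, h7, (h.dep a _ _ h6).2 hx, (χ a y).natDegree, Nat.lt_succ_of_le (h1.bd a y).1, i,
      i.2, ?_⟩
    rw [chi_congr _ h7, h6 (m a + i) (Nat.add_lt_add_left i.2 _), join_add, ext_val]
    refine ⟨⟨le_rfl, (h1.bd a y).2 _⟩, ?_⟩
    rw [show z _ = _ from Function.update_self ..]
    exact inv_mul_cancel₀ hi

end Vale.Agent.N337A
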