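import Vale.Agent.P337T.Defs

/-!
Prenex formulas over the reals with universal, existential and counting quantifiers.
-/

namespace Vale.Agent.N337A

open Vale.Agent.P337T

/-- The kinds of quantifiers: universal, existential, and two counting quantifiers. -/
inductive Qu : Type
  | all
  | ex
  | cnt
  | bit

/-- `Prenex q n`: formulas with `n` free variables and one block of quantifiers for each entry of
the list `q`. A block binds `b` new real variables: for all points of `ℝ^b`, for some point, for at
least `N` different points, or for finitely many points whose number has binary digit `1` at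
place `N` (`Set.ncard` is `0` for infinite sets). -/
inductive Prenex : List Qu → ℕ → Type
  | qf {n : ℕ} (φ : Formula n) : Prenex [] n
  | all {q : List Qu} {n : ℕ} (b : ℕ) (ψ : Prenex q (n + b)) : Prenex (.all :: q) n
  | ex {q : List Qu} {n : ℕ} (b : ℕ) (ψ : Prenex q (n + b)) : Prenex (.ex :: q) n
  | cnt {q : List Qu} {n : ℕ} (b N : ℕ) (ψ : Prenex q (n + b)) : Prenex (.cnt :: q) n
  | bit {q : List Qu} {n : ℕ} (b N : ℕ) (ψ : Prenex q (n + b)) : Prenex (.bit :: q) n

/-- The formula is true at the real point `x`. -/
def Prenex.Holds : {q : List Qu} → {n : ℕ} → Prenex q n → (Fin n → ℝ) → Prop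
  | _, _, .qf φ, x => φ.Holds x
  | _, _, .all b ψ, x => ∀ y : Fin b → ℝ, ψ.Holds (Fin.append x y)
  | _, _, .ex b ψ, x => ∃ y : Fin b → ℝ, ψ.Holds (Fin.append x y)
  | _, _, .cnt b N ψ, x => (N : ℕ∞) ≤ {y : Fin b → ℝ | ψ.Holds (Fin.append x y)}.encard
  | _, _, .bit b N ψ, x => {y : Fin b → ℝ | ψ.Holds (Fin.append x y)}.ncard.testBit N = true

/-- The code: for each block `b` in unary (and `N` in binary), at the end the code of the
quantifier free part. -/
def Prenex.code : {q : List Qu} → {n : ℕ} → Prenex q n → List Bool
  | _, n, .qf φ => sentenceCode n φ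
  | _, _, .all b ψ => pair (unary b) ψ.code
  | _, _, .ex b ψ => pair (unary b) ψ.code
  | _, _, .cnt b N ψ => pair (pair (unary b) N.bits) ψ.code
  | _, _, .bit b N ψ => pair (pair (unary b) N.bits) ψ.code

/-- The codes of the true sentences with quantifier prefix `q`. -/
def Th (q : List Qu) : Set (List Bool) :=
  {w | ∃ ψ : Prenex q 0, w = ψ.code ∧ ψ.Holds Fin.elim0}

/-- The languages that are polynomial time many-one reducible to `A`. -/
def Red (A : Set (List Bool)) : Set (Set (List Bool)) :=
  {L | ∃ f, PolyTime f ∧ ∀ x, x ∈ L ↔ f x ∈ A}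

end Vale.Agent.N337A
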