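import Vale.Agent.N337A.SG
import Mathlib.Topology.UrysohnsLemma
import Mathlib.Topology.MetricSpace.Sequences

/-!
Sample points: every clopen piece of a fibre of the zero set of a nonnegative polynomial contains
a point all of whose coordinates are roots of one univariate polynomial.
-/

namespace Vale.Agent.N337A

open Vale.Agent.Lib.PolyTime hiding C P
open Vale.Agent.P337 Finset Filter Topology MvPolynomial
open scoped Polynomial

section Split

variable {R S : Type} [CommRing R] [CommRing S]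

/-- The first `m` coordinates from `z`, the next ones from `x`. -/
def join (m : ℕ) {n : ℕ} (z : ℕ → R) (x : Fin n → R) (i : ℕ) : R :=
  if i < m then z i else ext x (i - m)

/-- `F` as a polynomial in the variables with numbers from `m` on. -/
noncomputable def split (N m n : ℕ) (F : MvPolynomial (Fin N) ℤ) (y : ℕ → R) :
    MvPolynomial (Fin n) R :=
  zev N (fun i => if i < m then C (y i) else XN n R (i - m)) F

theorem map_XN (φ : R →+* S) (n i : ℕ) : map φ (XN n R i) = XN n S i := by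
  unfold XN
  split_ifs
  · exact map_X _ _
  · exact map_zero _

theorem eval_XN {n : ℕ} (x : Fin n → R) (i : ℕ) : eval x (XN n R i) = ext x i := by
  unfold XN P337.ext
  split_ifs
  · exact eval_X _
  · exact map_zero _

theorem map_split (φ : R →+* S) (N m n : ℕ) (F : MvPolynomial (Fin N) ℤ) (y : ℕ → R) :
    map φ (split N m n F y) = split N m n F fun i => φ (y i) := by
  rw [split, map_zev]
  simp only [apply_ite (MvPolynomial.map φ), map_C, map_XN]
  rfl

theorem eval_split (N m : ℕ) {n : ℕ} (F : MvPolynomial (Fin N) ℤ) (y : ℕ → R) (x : Fin n → R) :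
    eval x (split N m n F y) = zev N (join m y x) F := by
  rw [split, map_zev]
  simp only [apply_ite (eval x), eval_C, eval_XN]
  rfl

theorem split_congr {N m n : ℕ} (F : MvPolynomial (Fin N) ℤ) {y y' : ℕ → R}
    (h : ∀ i < m, y i = y' i) : split N m n F y = split N m n F y' := by
  unfold split
  congr 2
  funext i
  split_ifs with hi
  · rw [h i hi]
  · rfl

end Split

/-- The resultant-like polynomial in `T` (inner variable) and `t` (outer variable). -/
noncomputable def chi (N m n e : ℕ) (F : MvPolynomial (Fin N) ℤ) (y : Pt) : ℝ[X][X] :=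
  EE e (e ^ n * n) (rr Polynomial.X (split N m n F fun i => Polynomial.C (Polynomial.C (y i))))
    (∏ i ∈ range n, (C (Polynomial.C Polynomial.X : ℝ[X][X]) - XN n ℝ[X][X] i)) (e ^ n)

theorem chi_congr {N m n e : ℕ} (F : MvPolynomial (Fin N) ℤ) {y y' : Pt}
    (h : ∀ i < m, y i = y' i) : chi N m n e F y = chi N m n e F y' := by
  unfold chi
  rw [split_congr F (y' := fun i => Polynomial.C (Polynomial.C (y' i))) fun i hi => by rw [h i hi]]

/-- Value of a polynomial in two variables. -/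
noncomputable def ev2 (t T : ℝ) : ℝ[X][X] →+* ℝ :=
  Polynomial.eval₂RingHom (Polynomial.evalRingHom T) t

theorem totalDegree_XN_le' {R : Type} [CommRing R] (n i : ℕ) : Dg 1 (XN n R i) := by
  unfold XN
  split_ifs
  · exact Dg.X _
  · exact Dg.zero _

theorem ev2_chi {N m n e : ℕ} (he : 1 ≤ e) {F : MvPolynomial (Fin N) ℤ} {y : Pt}
    (hd : (split N m n F y).totalDegree ≤ e) (t T : ℝ) : ∃ Z : Multiset (Fin n → ℂ),
      (∀ η, η ∈ Z ↔ ∀ i, eval η (map Complex.ofRealHom (sys e (rr t (split N m n F y)) i)) = 0) ∧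
      ((ev2 t T (chi N m n e F y) : ℝ) : ℂ) =
        QQ (e ^ n) * (Z.map fun η => ∏ i, ((T : ℂ) - η i)).prod := by
  have hr := dg_rr he ((dg_iff.2 hd).map Complex.ofRealHom) (t : ℂ)
  obtain ⟨Z, h1, h2, h3, -⟩ := exists_roots_EE he hr
  rw [Fintype.card_fin] at h2 h3
  refine ⟨Z, fun η => ?_, ?_⟩
  · simp only [h1, map_sys, map_rr]
    rfl
  have h4 := map_EE (Complex.ofRealHom.comp (ev2 t T)) e (e ^ n * n)
    (rr Polynomial.X (split N m n F fun i => Polynomial.C (Polynomial.C (y i))))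
    (∏ i ∈ range n, (C (Polynomial.C Polynomial.X : ℝ[X][X]) - XN n ℝ[X][X] i)) (e ^ n)
  simp only [map_rr, map_split, map_prod, map_sub, map_C, map_XN] at h4
  have h5 : Dg ((range n).card * 1) (∏ i ∈ range n, (C (T : ℂ) - XN n ℂ i)) :=
    Dg.prod _ fun i _ => ((Dg.C _).mono (by norm_num)).sub (totalDegree_XN_le' n i)
  rw [card_range, mul_one] at h5
  have h6 := h3 (e ^ n * n) _ (Nat.mul_le_mul_left _ (dg_iff.1 h5)) _ le_rfl
  rw [map_split] at h6
  have h7 : (Z.map fun η => eval η (∏ i ∈ range n, (C (T : ℂ) - XN n ℂ i))).esymm (e ^ n) =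
      (Z.map fun η => ∏ i, ((T : ℂ) - η i)).prod := by
    rw [← esymm_card, Multiset.card_map, h2]
    congr 2
    funext η
    simp only [map_prod, map_sub, eval_C, eval_XN, prod_range, ext_val]
  rw [← h7, ← h6]
  refine h4.trans ?_
  simp [ev2]

theorem chi_ne_zero {N m n e : ℕ} (he : 1 ≤ e) {F : MvPolynomial (Fin N) ℤ} {y : Pt}
    (hd : (split N m n F y).totalDegree ≤ e) : chi N m n e F y ≠ 0 := by
  obtain ⟨Z, h1, h2⟩ := ev2_chi he hd 0 0
  intro h
  rw [h, map_zero, Complex.ofReal_zero, eq_comm, mul_eq_zero, Multiset.prod_eq_zero_iff,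
    Multiset.mem_map] at h2
  rcases h2 with h2 | ⟨η, hη, h2⟩
  · exact (QQ_pos _).ne' (by exact_mod_cast h2)
  · obtain ⟨i, -, hi⟩ := prod_eq_zero_iff.1 h2
    have h3 := (h1 η).1 hη i
    have h4 : η i = 0 := by simpa using hi
    simp [sys, rr, h4, zero_pow (show e ≠ 0 by omega)] at h3

theorem chi_root {N m n e : ℕ} (he : 1 ≤ e) {F : MvPolynomial (Fin N) ℤ} {y : Pt}
    (hd : (split N m n F y).totalDegree ≤ e) (t : ℝ) (x : Fin n → ℝ)
    (hx : ∀ i, eval x (sys e (rr t (split N m n F y)) i) = 0) (i : Fin n) :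
    ev2 t (x i) (chi N m n e F y) = 0 := by
  obtain ⟨Z, h1, h2⟩ := ev2_chi he hd t (x i)
  apply Complex.ofReal_injective
  rw [h2, Multiset.prod_eq_zero, mul_zero, Complex.ofReal_zero]
  refine Multiset.mem_map.2 ⟨fun j => (x j : ℂ), (h1 _).2 fun j => ?_, ?_⟩
  · rw [eval_ofReal, hx j, Complex.ofReal_zero]
  · exact prod_eq_zero (mem_univ i) (sub_self _)

theorem lead_root (χ : ℝ[X][X]) {u t : ℕ → ℝ} {u₀ : ℝ} (hu : Tendsto u atTop (𝓝 u₀))
    (ht : Tendsto t atTop atTop) (h : ∀ᶠ k in atTop, ev2 (t k) (u k) χ = 0) :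
    χ.leadingCoeff.eval u₀ = 0 := by
  let G : ℝ × ℝ → ℝ := fun p =>
    ∑ j ∈ range (χ.natDegree + 1), (χ.coeff j).eval p.1 * p.2 ^ (χ.natDegree - j)
  have hG : Continuous G := by
    refine continuous_finsetSum _ fun j _ => ?_
    exact ((χ.coeff j).continuous.comp continuous_fst).mul (continuous_snd.pow _)
  have h1 := (hG.tendsto (u₀, 0)).comp (hu.prodMk_nhds ht.inv_tendsto_atTop)
  have h2 : G (u₀, 0) = χ.leadingCoeff.eval u₀ := by
    simp only [G]
    rw [sum_range_succ, Nat.sub_self, pow_zero, mul_one, sum_eq_zero, zero_add]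
    · rfl
    · intro j hj
      rw [zero_pow (by have := mem_range.1 hj; omega), mul_zero]
  rw [← h2]
  refine tendsto_nhds_unique h1 (tendsto_const_nhds.congr' ?_)
  filter_upwards [h, ht.eventually_gt_atTop 0] with k hk hk0
  rw [ev2, Polynomial.coe_eval₂RingHom, Polynomial.eval₂_eq_sum_range] at hk
  have h3 : (G ∘ fun k => (u k, t⁻¹ k)) k = (t k)⁻¹ ^ χ.natDegree *
      ∑ j ∈ range (χ.natDegree + 1), Polynomial.evalRingHom (u k) (χ.coeff j) * t k ^ j := by
    simp only [G, Function.comp, Pi.inv_apply, mul_sum, Polynomial.coe_evalRingHom]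
    refine sum_congr rfl fun j hj => ?_
    obtain ⟨l, hl⟩ := Nat.exists_eq_add_of_le (Nat.lt_succ_iff.1 (mem_range.1 hj))
    rw [hl, Nat.add_sub_cancel_left, pow_add, inv_pow _ j]
    field_simp
  rw [h3, hk, mul_zero]

theorem sample {n e : ℕ} (he : Odd e) {P : MvPolynomial (Fin n) ℝ} (hP : ∀ x, 0 ≤ eval x P)
    {A : Set (Fin n → ℝ)} (hA : IsClosed (A ∩ {x | eval x P = 0}))
    (hB : IsClosed (Aᶜ ∩ {x | eval x P = 0})) {x₀ : Fin n → ℝ} (h0 : x₀ ∈ A)
    (hz : eval x₀ P = 0) (χ : ℝ[X][X])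
    (hχ : ∀ t x, (∀ i, eval x (sys e (rr t P) i) = 0) → ∀ i, ev2 t (x i) χ = 0) :
    ∃ x ∈ A, eval x P = 0 ∧ ∀ i, χ.leadingCoeff.eval (x i) = 0 := by
  obtain ⟨φ, hφ0, hφ1, -⟩ := exists_continuous_zero_one_of_isClosed hA hB
    (Set.disjoint_left.2 fun x h1 h2 => h2.1 h1.1)
  set c := eval x₀ (NN (Fin n) ℝ e)
  have hN := continuous_eval (NN (Fin n) ℝ e)
  let V : Set (Fin n → ℝ) := {x | eval x (NN (Fin n) ℝ e) ≤ c + 1} ∩ {x | φ x ≤ 1 / 2}
  have hV : IsCompact V := Metric.isCompact_of_isClosed_isBounded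
    ((isClosed_le hN continuous_const).inter (isClosed_le φ.continuous continuous_const))
    ((Metric.isBounded_closedBall (x := (0 : Fin n → ℝ)) (r := max ((e : ℝ) + 2) (c + 1))).subset
      fun x hx => mem_closedBall_zero_iff.2 (norm_le_of_NN he hx.1))
  have h0V : x₀ ∈ V := ⟨by simp [c], by simp [hφ0 ⟨h0, hz⟩]⟩
  choose x hxV hx using fun k : ℕ =>
    hV.exists_isMinOn ⟨x₀, h0V⟩ (continuous_eval (hh e ((k : ℝ) + 1) P)).continuousOn
  have hb : ∀ k, eval (x k) (NN (Fin n) ℝ e) ≤ c ∧ eval (x k) P ≤ c * (1 / ((k : ℝ) + 1)) := by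
    intro k
    have h1 : eval (x k) (hh e ((k : ℝ) + 1) P) ≤ eval x₀ (hh e ((k : ℝ) + 1) P) := hx k h0V
    rw [eval_hh, eval_hh, hz, mul_zero, add_zero] at h1
    have h2 := NN_nonneg he (x k)
    have h3 : 0 ≤ ((k : ℝ) + 1) * eval (x k) P := mul_nonneg (by positivity) (hP _)
    have h4 : 0 ≤ (e : ℝ) * (((k : ℝ) + 1) * eval (x k) P) := mul_nonneg (by positivity) h3
    refine ⟨by nlinarith, ?_⟩
    rw [mul_one_div, le_div_iff₀ (by positivity)]
    nlinarith
  obtain ⟨w, hwV, s, hs, hw⟩ := hV.tendsto_subseq hxV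
  have hs' := hs.tendsto_atTop
  have hwP : eval w P = 0 := by
    refine le_antisymm ?_ (hP w)
    have h1 := (tendsto_one_div_add_atTop_nhds_zero_nat (𝕜 := ℝ)).const_mul c
    rw [mul_zero] at h1
    exact le_of_tendsto_of_tendsto' (((continuous_eval P).tendsto w).comp hw) (h1.comp hs')
      fun k => (hb (s k)).2
  have hwN : eval w (NN (Fin n) ℝ e) ≤ c :=
    le_of_tendsto' ((hN.tendsto w).comp hw) fun k => (hb (s k)).1
  have hwA : w ∈ A := by
    by_contra h
    have h1 : φ w ≤ 1 / 2 := hwV.2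
    rw [hφ1 ⟨h, hwP⟩] at h1
    norm_num at h1
  refine ⟨w, hwA, hwP, fun i => lead_root χ (u := fun k => x (s k) i)
    (t := fun k => (s k : ℝ) + 1) (tendsto_pi_nhds.1 hw i)
    (tendsto_atTop_add_const_right _ _ (tendsto_natCast_atTop_atTop.comp hs')) ?_⟩
  have hU : IsOpen ({x | eval x (NN (Fin n) ℝ e) < c + 1} ∩ {x | φ x < 1 / 2}) :=
    (isOpen_lt hN continuous_const).inter (isOpen_lt φ.continuous continuous_const)
  filter_upwards [hw.eventually (hU.mem_nhds ⟨lt_of_le_of_lt hwN (lt_add_one c),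
    show φ w < _ by rw [hφ0 ⟨hwA, hwP⟩]; norm_num⟩)] with k hk
  refine hχ _ _ (fun j => ?_) i
  have h1 : IsLocalMin (fun y => eval y (hh e ((s k : ℝ) + 1) P)) (x (s k)) :=
    (hx (s k)).isLocalMin (mem_of_superset (hU.mem_nhds hk) fun y hy =>
      ⟨le_of_lt (α := ℝ) hy.1, le_of_lt (α := ℝ) hy.2⟩)
  have h2 : IsLocalMin (fun u => eval (Function.update (x (s k)) j u) (hh e ((s k : ℝ) + 1) P))
      (x (s k) j) :=
    IsLocalMin.comp_continuous (f := fun y => eval y (hh e ((s k : ℝ) + 1) P))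
      (g := fun u => Function.update (x (s k)) j u) (b := x (s k) j)
      (by rwa [Function.update_eq_self]) (by fun_prop)
  have h3 := h2.hasDerivAt_eq_zero (P337.hasDerivAt_update _ _ j)
  rw [pderiv_hh, map_mul, eval_C, mul_eq_zero] at h3
  exact h3.resolve_left (by positivity)

variable {α : Type} [Enc α] {P : Type} [Enc P] {R S : α → Type} [∀ a, CommRing (R a)]
  [∀ a, PRing P (R a)] [∀ a, CommRing (S a)] {ev : (a : α) → Pt → R a →+* S a}

theorem SG_split {N m n : α → ℕ} (hN : CHF N) (hNb : PBd N) (hm : CHF m) (hn : CHF n)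
    {F : (a : α) → MvPolynomial (Fin (N a)) ℤ}
    (hF : MR0 (R := fun a => MvPolynomial (Fin (N a)) ℤ) F) {y : (a : α) → ℕ → Pt → S a}
    (hy : SG ev (fun a (i : ℕ) => i < m a) y) :
    SG0 (mev n ev) fun a z => split (N a) (m a) (n a) (F a) fun i => y a i z :=
  SG.zev hN hNb hF (v := fun a _ i z => if i < m a then C (y a i z) else XN (n a) _ (i - m a))
    (SG.ite (by fun_prop) (SG.mvC (hy.reindex (fun _ (x : Unit × ℕ) => x.2) (by fun_prop)
      fun _ _ h => h.2))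
      (SG.mvX hn (by fun_prop)))

theorem SG_chi {N m n e M : α → ℕ} (hN : CHF N) (hNb : PBd N) (hm : CHF m) (hn : CHF n)
    (hnb : PBd n) (he : CHF e) (hM : CHF M) (hmM : ∀ a, m a ≤ M a)
    {F : (a : α) → MvPolynomial (Fin (N a)) ℤ}
    (hF : MR0 (R := fun a => MvPolynomial (Fin (N a)) ℤ) F) :
    SG0 (pev (pev (rev M))) fun a z => chi (N a) (m a) (n a) (e a) (F a) z := by
  have h1 : SG0 (mev n (pev (pev (rev M)))) fun a z => split (N a) (m a) (n a) (F a)
      fun i => Polynomial.C (Polynomial.C (z i)) :=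
    SG_split hN hNb hm hn hF (y := fun _ i z => Polynomial.C (Polynomial.C (z i)))
      (SG.var hM (by fun_prop) fun a i hi => hi.trans_le (hmM a)).polyC.polyC
  have h2 : SG (mev n (pev (pev (rev M)))) (fun a (i : ℕ) => i < n a) fun a i z =>
      1 - C (Polynomial.X : ℝ[X][X]) * P337.ext (fun j => pderiv j (split (N a) (m a) (n a) (F a)
        fun i => Polynomial.C (Polynomial.C (z i)))) i :=
    SG.one.sub (SG.polyX.mvC.mul (h1.pderiv hn hnb))
  have h3 : SG0 (mev n (pev (pev (rev M)))) fun a _ =>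
      ∏ i ∈ range (n a), (C (Polynomial.C Polynomial.X : ℝ[X][X]) - XN (n a) ℝ[X][X] i) :=
    SG.prod_range (m := fun a _ => n a) (by fun_prop) (EB.of_chf hn)
      (H := fun a _ i _ => C (Polynomial.C Polynomial.X : ℝ[X][X]) - XN (n a) ℝ[X][X] i)
      (SG.polyX.polyC.mvC.sub (SG.mvX hn (by fun_prop)))
  refine (SG.EE (K := fun a => e a ^ n a * n a) hn hnb he (by fun_prop) h2 h3
    (k := fun a _ => e a ^ n a) (by fun_prop)).congr' fun a _ z _ => ?_
  simp only [ext_val]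
  rfl

end Vale.Agent.N337A

/-!
Real grid points at which a polynomial vanishes move continuously along a stratum.
-/

namespace Vale.Agent.N337A

open Vale.Agent.Lib.PolyTime hiding C P
open Vale.Agent.P337 Finset Filter Topology MvPolynomial

section Grid

variable {R S : Type} [CommRing R] [CommRing S]

/-- The right hand sides of the grid system. -/
noncomputable def gr (d n : ℕ) (a : ℕ → R) (i : ℕ) : MvPolynomial (Fin n) R :=
  -∑ j ∈ range d, C (a j) * XN n R i ^ (j + 1)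

/-- The monic polynomial of the grid. -/
def mu (d : ℕ) (a : ℕ → R) (x : R) : R := x ^ (d + 1) + ∑ j ∈ range d, a j * x ^ (j + 1)

theorem map_gr (φ : R →+* S) (d n : ℕ) (a : ℕ → R) (i : ℕ) :
    MvPolynomial.map φ (gr d n a i) = gr d n (fun j => φ (a j)) i := by
  simp only [gr, map_neg, map_sum, map_mul, map_C, map_pow, map_XN]

theorem map_mu (φ : R →+* S) (d : ℕ) (a : ℕ → R) (x : R) :
    φ (mu d a x) = mu d (fun j => φ (a j)) (φ x) := by simp [mu]

theorem eval_sys_gr (d : ℕ) {n : ℕ} (a : ℕ → R) (x : Fin n → R) (i : Fin n) :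
    eval x (sys (d + 1) (fun i : Fin n => gr d n a i) i) = mu d a (x i) := by
  simp [sys, gr, mu, eval_XN, ext_val]

theorem dg_gr (d n : ℕ) (a : ℕ → R) (i : ℕ) : Dg (((d + 1 : ℕ) : ℤ) - 1) (gr d n a i) :=
  (Dg.sum _ fun j hj => (((totalDegree_XN_le' n i).pow (j + 1)).C_mul _).mono (by
    have := mem_range.1 hj
    omega)).neg

/-- `c` is the largest index up to `D` with `u c ≠ 0`. -/
def Top (u : ℕ → R) (D c : ℕ) : Prop := c ≤ D ∧ u c ≠ 0 ∧ ∀ c', c < c' → c' ≤ D → u c' = 0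

theorem Top.unique {u : ℕ → R} {D c c' : ℕ} (h : Top u D c) (h' : Top u D c') : c = c' :=
  le_antisymm (not_lt.1 fun hl => h.2.1 (h'.2.2 c hl h.1))
    (not_lt.1 fun hl => h'.2.1 (h.2.2 c' hl h'.1))

end Grid

/-- The number of nonzero entries. -/
noncomputable def nz {D : ℕ} (v : Fin D → ℂ) : ℕ := (univ.filter fun j => v j ≠ 0).card

theorem top_nz {D : ℕ} (v : Fin D → ℂ) : Top (univ.val.map v).esymm D (nz v) := by
  have h1 : ∀ c, (univ.val.map v).esymm c = ((univ.filter fun j => v j ≠ 0).val.map v).esymm c := by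
    intro c
    rw [← coeff_prod_one_add, ← coeff_prod_one_add, Multiset.map_map, Multiset.map_map,
      ← prod_eq_multiset_prod, ← prod_eq_multiset_prod]
    congr 1
    exact (prod_subset (filter_subset _ _) fun j _ hj => by
      have : v j = 0 := by simpa using hj
      simp [this]).symm
  have h2 : nz v = ((univ.filter fun j => v j ≠ 0).val.map v).card := by
    rw [Multiset.card_map]
    rfl
  refine ⟨(card_filter_le _ _).trans (by simp), ?_, fun c hc _ => ?_⟩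
  · rw [h1, h2, esymm_card, ← prod_eq_multiset_prod]
    exact prod_ne_zero_iff.2 fun j hj => (mem_filter.1 hj).2
  · rw [h1, Multiset.esymm, Multiset.powersetCard_eq_empty _ (h2 ▸ hc)]
    simp

theorem nz_eq_of_top {D c : ℕ} {v : Fin D → ℂ} {u : ℕ → ℝ} (h : Top u D c)
    (hu : ∀ k ≤ D, (u k : ℂ) = QQ D * (univ.val.map v).esymm k) : nz v = c := by
  have hQ : ((QQ D : ℕ) : ℂ) ≠ 0 := by exact_mod_cast (QQ_pos D).ne'
  refine (top_nz v).unique ⟨h.1, fun h0 => h.2.1 ?_, fun k hk hD => ?_⟩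
  · exact Complex.ofReal_eq_zero.1 ((hu c h.1).trans (by rw [h0, mul_zero]))
  · have := hu k hD
    rw [h.2.2 k hk hD, Complex.ofReal_zero, eq_comm, mul_eq_zero] at this
    exact this.resolve_left hQ

theorem nz_stable {D : ℕ} {v : ℕ → Fin D → ℂ} {w : Fin D → ℂ} (h : Tendsto v atTop (𝓝 w))
    (hn : ∀ k, nz (v k) = nz w) : ∀ᶠ k in atTop, ∀ j, w j = 0 → v k j = 0 := by
  have h1 : ∀ᶠ k in atTop, ∀ j, w j ≠ 0 → v k j ≠ 0 := by
    refine eventually_all.2 fun j => ?_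
    by_cases hj : w j = 0
    · exact Eventually.of_forall fun _ h => absurd hj h
    · exact ((tendsto_pi_nhds.1 h j).eventually_ne hj).mono fun _ h _ => h
  filter_upwards [h1] with k hk j hj
  have h2 : (univ.filter fun j => w j ≠ 0) = univ.filter fun j => v k j ≠ 0 :=
    eq_of_subset_of_card_le (fun j hj => mem_filter.2 ⟨mem_univ _, hk j (mem_filter.1 hj).2⟩)
      (hn k).le
  by_contra h3
  exact (mem_filter.1 (h2.ge (mem_filter.2 ⟨mem_univ j, h3⟩))).2 hj

/-- `η` enumerates the complex points of the grid with multiplicities. -/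
def Spec (d n : ℕ) (a : ℕ → ℂ) (η : Fin ((d + 1) ^ n) → Fin n → ℂ) : Prop :=
  (∀ x, (∃ j, η j = x) ↔ ∀ i, mu d a (x i) = 0) ∧ ∀ K g, (d + 1) ^ n * totalDegree g ≤ K →
    ∀ c ≤ (d + 1) ^ n, EE (d + 1) K (fun i : Fin n => gr d n a i) g c =
      QQ ((d + 1) ^ n) * (univ.val.map fun j => eval (η j) g).esymm c

theorem exists_enum {β : Type} (Z : Multiset β) {D : ℕ} (h : Z.card = D) :
    ∃ η : Fin D → β, univ.val.map η = Z := by
  subst h
  induction Z using Quotient.inductionOn with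
  | h l => exact ⟨l.get, (Fin.univ_val_map _).trans (by rw [List.ofFn_get]; rfl)⟩

theorem exists_spec (d n : ℕ) (a : ℕ → ℂ) : ∃ η, Spec d n a η := by
  obtain ⟨Z, h1, h2, h3, -⟩ := exists_roots_EE (r := fun i : Fin n => gr d n a i)
    (Nat.le_add_left 1 d) fun i => dg_gr d n a i
  rw [Fintype.card_fin] at h2 h3
  obtain ⟨η, rfl⟩ := exists_enum Z h2
  refine ⟨η, fun x => ?_, fun K g hK c hc => ?_⟩
  · simpa [eval_sys_gr] using h1 x
  · rw [h3 K g hK c hc, Multiset.map_map]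
    rfl

theorem tendsto_esymm {D : ℕ} {v : ℕ → Fin D → ℂ} {w : Fin D → ℂ} (h : Tendsto v atTop (𝓝 w))
    (c : ℕ) : Tendsto (fun k => (univ.val.map (v k)).esymm c) atTop
      (𝓝 ((univ.val.map w).esymm c)) := by
  simp only [esymm_map_val]
  exact tendsto_finsetSum _ fun t _ => tendsto_finsetProd _ fun j _ => tendsto_pi_nhds.1 h j

theorem spec_limit {d n : ℕ} {a : ℕ → ℕ → ℂ} {a₀ : ℕ → ℂ} (ha : Tendsto a atTop (𝓝 a₀))
    {η : ℕ → Fin ((d + 1) ^ n) → Fin n → ℂ} {η₀ ζ : Fin ((d + 1) ^ n) → Fin n → ℂ}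
    (hs : ∀ k, Spec d n (a k) (η k)) (hη : Tendsto η atTop (𝓝 η₀)) (hζ : Spec d n a₀ ζ) :
    univ.val.map η₀ = univ.val.map ζ := by
  classical
  have hQ : ((QQ ((d + 1) ^ n) : ℕ) : ℂ) ≠ 0 := by exact_mod_cast (QQ_pos _).ne'
  have h1 : ∀ g : MvPolynomial (Fin n) ℂ,
      nz (fun j => eval (η₀ j) g) = nz fun j => eval (ζ j) g := by
    intro g
    have h2 : ∀ c ≤ (d + 1) ^ n, (univ.val.map fun j => eval (η₀ j) g).esymm c =
        (univ.val.map fun j => eval (ζ j) g).esymm c := by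
      intro c hc
      have h3 : ∀ b : ℕ → ℂ, EE (d + 1) ((d + 1) ^ n * g.totalDegree)
          (fun i : Fin n => gr d n b i) g c = eval b (EE (d + 1) ((d + 1) ^ n * g.totalDegree)
            (fun i : Fin n => gr d n (X : ℕ → MvPolynomial ℕ ℂ) i) (MvPolynomial.map C g) c) := by
        intro b
        rw [map_EE, MvPolynomial.map_map]
        simp only [map_gr, eval_X]
        congr 1
        rw [show (eval b).comp C = RingHom.id ℂ from RingHom.ext fun x => eval_C x,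
          MvPolynomial.map_id]
      have h4 := ((continuous_eval (EE (d + 1) ((d + 1) ^ n * g.totalDegree)
        (fun i : Fin n => gr d n (X : ℕ → MvPolynomial ℕ ℂ) i)
        (MvPolynomial.map C g) c)).tendsto a₀).comp ha
      simp only [Function.comp_def, ← h3, (hs _).2 _ g le_rfl c hc, hζ.2 _ g le_rfl c hc] at h4
      exact mul_left_cancel₀ hQ (tendsto_nhds_unique ((tendsto_esymm
        (v := fun k j => eval (η k j) g) (tendsto_pi_nhds.2 fun j =>
          ((continuous_eval g).tendsto _).comp (tendsto_pi_nhds.1 hη j)) c).const_mul _) h4)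
    obtain ⟨h5, h6, h7⟩ := top_nz fun j => eval (η₀ j) g
    exact Top.unique ⟨h5, h2 _ h5 ▸ h6, fun c h h' => h2 c h' ▸ h7 c h h'⟩ (top_nz _)
  ext w
  have h2 : ∀ τ : Fin n → ℂ, ∃ g : MvPolynomial (Fin n) ℂ, eval w g ≠ 0 ∧ (τ ≠ w → eval τ g = 0) := by
    intro τ
    by_cases h : τ = w
    · exact ⟨1, by simp, fun h' => absurd h h'⟩
    · obtain ⟨i, hi⟩ := Function.ne_iff.1 h
      exact ⟨X i - C (τ i), by simpa using sub_ne_zero.2 hi.symm, fun _ => by simp⟩
  choose g hg hg' using h2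
  have h3 : ∀ θ : Fin ((d + 1) ^ n) → Fin n → ℂ, (∀ j, θ j ∈ image η₀ univ ∪ image ζ univ) →
      nz (fun j => eval (θ j) (∏ τ ∈ image η₀ univ ∪ image ζ univ, g τ)) =
        (univ.val.map θ).count w := by
    intro θ hθ
    rw [Multiset.count_map, nz, ← filter_val, card_val]
    congr 1
    refine filter_congr fun j _ => ⟨fun h => ?_, fun h => ?_⟩
    · by_contra h'
      rw [map_prod] at h
      exact h (prod_eq_zero (hθ j) (hg' _ (Ne.symm h')))
    · rw [← h, map_prod]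
      exact prod_ne_zero_iff.2 fun τ _ => hg τ
  rw [← h3 η₀ fun j => mem_union_left _ (mem_image_of_mem _ (mem_univ j)),
    ← h3 ζ fun j => mem_union_right _ (mem_image_of_mem _ (mem_univ j)), h1]

theorem roots_bounded (d : ℕ) {a : ℕ → ℕ → ℂ} {a₀ : ℕ → ℂ} (ha : Tendsto a atTop (𝓝 a₀)) :
    ∃ B, ∀ k x, mu d (a k) x = 0 → ‖x‖ ≤ B := by
  choose M hM using fun j => (tendsto_pi_nhds.1 ha j).norm.bddAbove_range
  have hM' : ∀ j k, ‖a k j‖ ≤ M j := fun j k => hM j ⟨k, rfl⟩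
  have h0 : ∀ j, 0 ≤ M j := fun j => (norm_nonneg _).trans (hM' j 0)
  refine ⟨∑ j ∈ range d, M j + 1, fun k x hx => le_of_not_ge fun h => ?_⟩
  have h1 := cauchy_sum d (fun i => if i < d then a k i else 1) x (by simp) (fun i hi => by
    rw [if_pos hi]
    exact (hM' i k).trans (single_le_sum (fun j _ => h0 j) (mem_range.2 hi))) h
  have h2 : mu d (a k) x = x * ∑ i ∈ range (d + 1), (if i < d then a k i else 1) * x ^ i := by
    rw [mu, sum_range_succ, if_neg (lt_irrefl d), mul_add, mul_sum, add_comm]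
    congr 1
    · exact sum_congr rfl fun i hi => by rw [if_pos (mem_range.1 hi)]; ring
    · ring
  rw [h2, mul_eq_zero] at hx
  rcases hx with hx | hx
  · rw [hx, norm_zero] at h
    linarith [sum_nonneg fun j (_ : j ∈ range d) => h0 j]
  · rw [hx, norm_zero] at h1
    linarith

theorem tendsto_ofReal {a : ℕ → ℕ → ℝ} {a₀ : ℕ → ℝ} (ha : Tendsto a atTop (𝓝 a₀)) :
    Tendsto (fun k j => (a k j : ℂ)) atTop (𝓝 fun j => (a₀ j : ℂ)) :=
  tendsto_pi_nhds.2 fun j => (Complex.continuous_ofReal.tendsto _).comp (tendsto_pi_nhds.1 ha j)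

theorem tendsto_join {K : Type} [NormedField K] (m : ℕ) {n : ℕ} {y : ℕ → ℕ → K} {y₀ : ℕ → K}
    (hy : Tendsto y atTop (𝓝 y₀)) {x : ℕ → Fin n → K} {x₀ : Fin n → K}
    (hx : Tendsto x atTop (𝓝 x₀)) :
    Tendsto (fun k => join m (y k) (x k)) atTop (𝓝 (join m y₀ x₀)) := by
  refine tendsto_pi_nhds.2 fun i => ?_
  unfold join P337.ext
  split_ifs
  · exact tendsto_pi_nhds.1 hy i
  · exact tendsto_pi_nhds.1 hx _
  · exact tendsto_const_nhds

/-- The data of a stratum at the point `y`. -/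
def Cnt (N m n d K c₁ c₂ : ℕ) (F : MvPolynomial (Fin N) ℤ) (a y : Pt) : Prop :=
  (d + 1) ^ n * (split N m n F y).totalDegree ≤ K ∧
  Top (EE (d + 1) K (fun i : Fin n => gr d n a i) (XN n ℝ 0 - XN n ℝ 1)) ((d + 1) ^ n) c₁ ∧
  Top (EE (d + 1) K (fun i : Fin n => gr d n a i) (split N m n F y)) ((d + 1) ^ n) c₂

theorem EE_real {d n K : ℕ} {a : Pt} {η : Fin ((d + 1) ^ n) → Fin n → ℂ}
    (hη : Spec d n (fun j => (a j : ℂ)) η) (g : MvPolynomial (Fin n) ℝ)
    (hg : (d + 1) ^ n * g.totalDegree ≤ K) : ∀ c ≤ (d + 1) ^ n,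
      ((EE (d + 1) K (fun i : Fin n => gr d n a i) g c : ℝ) : ℂ) = QQ ((d + 1) ^ n) *
        (univ.val.map fun j => eval (η j) (MvPolynomial.map Complex.ofRealHom g)).esymm c := by
  intro c hc
  rw [← hη.2 K _ ((Nat.mul_le_mul_left _ (totalDegree_map_le' _ _)).trans hg) c hc]
  have := map_EE Complex.ofRealHom (d + 1) K (fun i : Fin n => gr d n a i) g c
  simp only [map_gr] at this
  exact this

theorem deg_X01 {D K : ℕ} (n : ℕ) (hK : D ≤ K) :
    D * (XN n ℝ 0 - XN n ℝ 1).totalDegree ≤ K :=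
  (Nat.mul_le_mul_left _ (dg_iff.1 (show Dg (1 : ℕ) (XN n ℝ 0 - XN n ℝ 1) from
    (totalDegree_XN_le' n 0).sub (totalDegree_XN_le' n 1)))).trans (by rwa [mul_one])

theorem exists_top {d n K : ℕ} (a : Pt) (g : MvPolynomial (Fin n) ℝ)
    (hg : (d + 1) ^ n * g.totalDegree ≤ K) :
    ∃ c, Top (EE (d + 1) K (fun i : Fin n => gr d n a i) g) ((d + 1) ^ n) c := by
  obtain ⟨η, hη⟩ := exists_spec d n fun j => (a j : ℂ)
  have hQ : ((QQ ((d + 1) ^ n) : ℕ) : ℂ) ≠ 0 := by exact_mod_cast (QQ_pos _).ne'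
  obtain ⟨h1, h2, h3⟩ := top_nz fun j => eval (η j) (MvPolynomial.map Complex.ofRealHom g)
  refine ⟨_, h1, fun h => mul_ne_zero hQ h2 ?_, fun c hc hc' => Complex.ofReal_eq_zero.1 ?_⟩
  · rw [← EE_real hη g hg _ h1, h, Complex.ofReal_zero]
  · rw [EE_real hη g hg _ hc', h3 c hc hc', mul_zero]

theorem Cnt.nz {N m n d K c₁ c₂ : ℕ} {F : MvPolynomial (Fin N) ℤ} {a y : Pt}
    (h : Cnt N m n d K c₁ c₂ F a y) (hK : (d + 1) ^ n ≤ K) {η : Fin ((d + 1) ^ n) → Fin n → ℂ}
    (hη : Spec d n (fun j => (a j : ℂ)) η) :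
    nz (fun j => P337.ext (η j) 0 - P337.ext (η j) 1) = c₁ ∧
      nz (fun j => zev N (join m (fun i => (y i : ℂ)) (η j)) F) = c₂ := by
  constructor
  · have := EE_real hη _ (deg_X01 n hK)
    simp only [map_sub, map_XN, eval_XN] at this
    exact nz_eq_of_top h.2.1 this
  · have := EE_real hη _ h.1
    simp only [map_split, eval_split] at this
    exact nz_eq_of_top h.2.2 this

/-- Membership in `S` is locally constant on the zero set of `f`. -/
def LC (f : Pt → ℝ) (S : Set Pt) : Prop :=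
  ∀ (z : ℕ → Pt) (z₀ : Pt), Tendsto z atTop (𝓝 z₀) → (∀ᶠ k in atTop, f (z k) = 0) →
    ∀ᶠ k in atTop, (z k ∈ S ↔ z₀ ∈ S)

theorem LC.of_exists {f : Pt → ℝ} {S : Set Pt} (h : ∀ (z : ℕ → Pt) (z₀ : Pt),
    Tendsto z atTop (𝓝 z₀) → (∀ k, f (z k) = 0) → ∃ k, (z k ∈ S ↔ z₀ ∈ S)) : LC f S := by
  intro z z₀ hz hf
  by_contra hc
  obtain ⟨s, hs, h1⟩ := extraction_of_frequently_atTop ((not_eventually.1 hc).and_eventually hf)
  obtain ⟨k, hk⟩ := h (z ∘ s) z₀ (hz.comp hs.tendsto_atTop) fun k => (h1 k).2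
  exact (h1 k).1 hk

/-- The first `b` coordinates of the real grid points over `y` that are zeros of `F` in `S`. -/
def GS (N m n d b : ℕ) (F : MvPolynomial (Fin N) ℤ) (S : Set Pt) (a y : Pt) : Set (Fin b → ℝ) :=
  (fun (x : Fin n → ℝ) (i : Fin b) => P337.ext x i) ''
    {x | (∀ i, mu d a (x i) = 0) ∧ zev N (join m y x) F = 0 ∧ join m y x ∈ S}

theorem ofReal_zev_join (N m : ℕ) {n : ℕ} (F : MvPolynomial (Fin N) ℤ) (y : Pt) (x : Fin n → ℝ) :
    ((zev N (join m y x) F : ℝ) : ℂ) =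
      zev N (join m (fun i => (y i : ℂ)) fun i => (x i : ℂ)) F := by
  refine (map_zev Complex.ofRealHom N _ F).trans ?_
  congr 2
  funext i
  unfold join P337.ext
  split_ifs <;> simp

theorem re_eq {n : ℕ} {θ : Fin n → ℂ} (h : ∀ i, θ i - (starRingEnd ℂ) (θ i) = 0) :
    (fun i => (((θ i).re : ℝ) : ℂ)) = θ :=
  funext fun i => Complex.conj_eq_iff_re.1 (sub_eq_zero.1 (h i)).symm

theorem GS_eq {N m n d : ℕ} (b : ℕ) (F : MvPolynomial (Fin N) ℤ) (S : Set Pt) {a : Pt} (y : Pt)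
    {η : Fin ((d + 1) ^ n) → Fin n → ℂ} (hη : Spec d n (fun j => (a j : ℂ)) η) :
    GS N m n d b F S a y = (fun j (i : Fin b) => P337.ext (fun l => (η j l).re) i) ''
      {j | (∀ i, η j i - (starRingEnd ℂ) (η j i) = 0) ∧
        zev N (join m (fun i => (y i : ℂ)) (η j)) F = 0 ∧ join m y (fun l => (η j l).re) ∈ S} := by
  have h0 : ∀ x : ℝ, ((mu d a x : ℝ) : ℂ) = mu d (fun j => (a j : ℂ)) x :=
    map_mu Complex.ofRealHom d a
  ext w
  constructor
  · rintro ⟨x, ⟨h1, h2, h3⟩, rfl⟩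
    obtain ⟨j, hj⟩ := (hη.1 fun i => (x i : ℂ)).2 fun i => by
      rw [← h0, h1, Complex.ofReal_zero]
    refine ⟨j, ⟨fun i => by simp [hj], ?_, by simpa [hj] using h3⟩, by simp [hj]⟩
    rw [hj, ← ofReal_zev_join, h2, Complex.ofReal_zero]
  · rintro ⟨j, ⟨h1, h2, h3⟩, rfl⟩
    refine ⟨_, ⟨fun i => Complex.ofReal_eq_zero.1 ?_, Complex.ofReal_eq_zero.1 ?_, h3⟩, rfl⟩
    · rw [h0, congrFun (re_eq h1) i]
      exact (hη.1 _).1 ⟨j, rfl⟩ i
    · rw [ofReal_zev_join, re_eq h1, h2]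

theorem ncard_image_congr {ι β : Type} {g g' : ι → β} {J : Set ι}
    (h : ∀ j ∈ J, ∀ j' ∈ J, g j = g j' ↔ g' j = g' j') : (g '' J).ncard = (g' '' J).ncard := by
  obtain ⟨T, hT, h1⟩ := Set.exists_subset_bijOn J g
  have h2 : g' '' J = g' '' T := by
    refine (Set.image_mono hT).antisymm' ?_
    rintro _ ⟨j, hj, rfl⟩
    obtain ⟨t, ht, h3⟩ := h1.surjOn ⟨j, hj, rfl⟩
    exact ⟨t, ht, (h t (hT ht) j hj).1 h3⟩
  rw [h2, ← h1.image_eq, h1.injOn.ncard_image, Set.InjOn.ncard_image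
    fun t ht t' ht' h3 => h1.injOn ht ht' ((h t (hT ht) t' (hT ht')).2 h3)]

theorem ev_iff {u : ℕ → ℂ} {u₀ : ℂ} (h : Tendsto u atTop (𝓝 u₀))
    (h0 : u₀ = 0 → ∀ᶠ k in atTop, u k = 0) : ∀ᶠ k in atTop, (u k = 0 ↔ u₀ = 0) := by
  by_cases h1 : u₀ = 0
  · exact (h0 h1).mono fun k hk => iff_of_true hk h1
  · exact (h.eventually_ne h1).mono fun k hk => iff_of_false hk h1

theorem delin {N m n d K c₁ c₂ : ℕ} (b : ℕ) (hn : 2 ≤ n) (hK : (d + 1) ^ n ≤ K)
    {F : MvPolynomial (Fin N) ℤ} {S : Set Pt} (hS : LC (fun z => zev N z F) S)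
    {a y : ℕ → Pt} {a₀ y₀ : Pt} (ha : Tendsto a atTop (𝓝 a₀))
    (hy : Tendsto y atTop (𝓝 y₀)) (h : ∀ k, Cnt N m n d K c₁ c₂ F (a k) (y k))
    (h₀ : Cnt N m n d K c₁ c₂ F a₀ y₀) :
    ∃ k, (GS N m n d b F S (a k) (y k)).ncard = (GS N m n d b F S a₀ y₀).ncard := by
  choose η hη using fun k => exists_spec d n fun j => (a k j : ℂ)
  obtain ⟨ζ, hζ⟩ := exists_spec d n fun j => (a₀ j : ℂ)
  obtain ⟨B, hB⟩ := roots_bounded d (tendsto_ofReal ha)
  obtain ⟨η₀, -, s, hs, hlim⟩ := tendsto_subseq_of_bounded (x := η)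
    (Metric.isBounded_closedBall (x := 0) (r := max B 0)) fun k => by
      rw [mem_closedBall_zero_iff, pi_norm_le_iff_of_nonneg (le_max_right _ _)]
      intro j
      rw [pi_norm_le_iff_of_nonneg (le_max_right _ _)]
      exact fun i => le_max_of_le_left (hB k _ (((hη k).1 _).1 ⟨j, rfl⟩ i))
  have hs' := hs.tendsto_atTop
  have he := spec_limit ((tendsto_ofReal ha).comp hs') (fun k => hη (s k)) hlim hζ
  have hη₀ : Spec d n (fun j => (a₀ j : ℂ)) η₀ := by
    refine ⟨fun x => ?_, fun K g hK c hc => ?_⟩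
    · rw [← hζ.1 x]
      simpa using congrArg (x ∈ ·) he
    · rw [hζ.2 K g hK c hc]
      have := congrArg (Multiset.map fun x => eval x g) he
      rw [Multiset.map_map, Multiset.map_map] at this
      exact congrArg (fun t : Multiset ℂ => _ * t.esymm c) this.symm
  have hl : ∀ j, Tendsto (fun k => η (s k) j) atTop (𝓝 (η₀ j)) := tendsto_pi_nhds.1 hlim
  have hl₀ : ∀ j i, Tendsto (fun k => η (s k) j i) atTop (𝓝 (η₀ j i)) := fun j =>
    tendsto_pi_nhds.1 (hl j)
  have i0 : 0 < n := by omega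
  have i1 : 1 < n := hn
  have e0 : ∀ θ : Fin n → ℂ, P337.ext θ 0 - P337.ext θ 1 = θ ⟨0, i0⟩ - θ ⟨1, i1⟩ := fun θ => by
    rw [ext_val θ ⟨0, i0⟩, ext_val θ ⟨1, i1⟩]
  have hv : Tendsto (fun k j => P337.ext (η (s k) j) 0 - P337.ext (η (s k) j) 1) atTop
      (𝓝 fun j => P337.ext (η₀ j) 0 - P337.ext (η₀ j) 1) := tendsto_pi_nhds.2 fun j => by
    simp only [e0]
    exact (hl₀ j _).sub (hl₀ j _)
  have s1 := nz_stable hv fun k => ((h (s k)).nz hK (hη _)).1.trans (h₀.nz hK hη₀).1.symm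
  have hz : ∀ j, Tendsto (fun k => zev N (join m (fun i => (y (s k) i : ℂ)) (η (s k) j)) F) atTop
      (𝓝 (zev N (join m (fun i => (y₀ i : ℂ)) (η₀ j)) F)) := fun j =>
    ((continuous_zev N F).tendsto _).comp (tendsto_join m ((tendsto_ofReal hy).comp hs') (hl j))
  have s2 := nz_stable (tendsto_pi_nhds.2 hz)
    fun k => ((h (s k)).nz hK (hη _)).2.trans (h₀.nz hK hη₀).2.symm
  have hr : ∀ k j i, mu d (fun j => (a (s k) j : ℂ)) (η (s k) j i) = 0 := fun k j i =>
    ((hη _).1 _).1 ⟨j, rfl⟩ i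
  have sep : ∀ (ρ ρ' : ℕ → ℂ) (w : ℂ), (∀ k, mu d (fun j => (a (s k) j : ℂ)) (ρ k) = 0) →
      (∀ k, mu d (fun j => (a (s k) j : ℂ)) (ρ' k) = 0) →
      Tendsto (fun k => ρ k - ρ' k) atTop (𝓝 w) → ∀ᶠ k in atTop, (ρ k - ρ' k = 0 ↔ w = 0) := by
    refine fun ρ ρ' w h1 h2 h3 => ev_iff h3 fun hw => ?_
    have s3 : ∀ᶠ k in atTop, ∀ j, P337.ext (η₀ j) 0 - P337.ext (η₀ j) 1 ≠ 0 →
        ‖ρ k - ρ' k‖ < ‖P337.ext (η (s k) j) 0 - P337.ext (η (s k) j) 1‖ := by
      refine eventually_all.2 fun j => ?_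
      by_cases hj : P337.ext (η₀ j) 0 - P337.ext (η₀ j) 1 = 0
      · exact Eventually.of_forall fun _ h => absurd hj h
      exact (h3.norm.eventually_lt (tendsto_pi_nhds.1 hv j).norm
        (by rw [hw, norm_zero]; exact norm_pos_iff.2 hj)).mono fun _ h _ => h
    filter_upwards [s1, s3] with k k1 k3
    by_contra hne
    obtain ⟨j, hj⟩ := ((hη (s k)).1 fun l => if l = ⟨1, i1⟩ then ρ' k else ρ k).2 fun l => by
      split_ifs
      · exact h2 k
      · exact h1 k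
    have h3 : P337.ext (η (s k) j) 0 - P337.ext (η (s k) j) 1 = ρ k - ρ' k := by
      rw [e0, hj]
      simp
    exact lt_irrefl _ (h3 ▸ k3 j fun h0 => hne (h3.symm.trans (k1 j h0)))
  have t1 : ∀ᶠ k in atTop, ∀ j i, (η (s k) j i - (starRingEnd ℂ) (η (s k) j i) = 0 ↔
      η₀ j i - (starRingEnd ℂ) (η₀ j i) = 0) := by
    refine eventually_all.2 fun j => eventually_all.2 fun i => sep _ _ _ (hr · j i) (fun k => ?_)
      ((hl₀ j i).sub ((Complex.continuous_conj.tendsto _).comp (hl₀ j i)))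
    have h2 := map_mu (starRingEnd ℂ) d (fun j => (a (s k) j : ℂ)) (η (s k) j i)
    simp only [hr, map_zero, Complex.conj_ofReal] at h2
    exact h2.symm
  have t2 : ∀ᶠ k in atTop, ∀ j j' i, (η (s k) j i - η (s k) j' i = 0 ↔ η₀ j i - η₀ j' i = 0) :=
    eventually_all.2 fun j => eventually_all.2 fun j' => eventually_all.2 fun i =>
      sep _ _ _ (hr · j i) (hr · j' i) ((hl₀ j i).sub (hl₀ j' i))
  have t3 := eventually_all.2 fun j => ev_iff (hz j) fun h0 => s2.mono fun _ hk => hk j h0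
  have t4 : ∀ᶠ k in atTop, ∀ j, (∀ i, η₀ j i - (starRingEnd ℂ) (η₀ j i) = 0) →
      zev N (join m (fun i => (y₀ i : ℂ)) (η₀ j)) F = 0 →
      (join m (y (s k)) (fun l => (η (s k) j l).re) ∈ S ↔
        join m y₀ (fun l => (η₀ j l).re) ∈ S) := by
    refine eventually_all.2 fun j => eventually_imp_distrib_left.2 fun h1 =>
      eventually_imp_distrib_left.2 fun h2 => hS _ _ (tendsto_join m (hy.comp hs')
        (tendsto_pi_nhds.2 fun i => (Complex.continuous_re.tendsto _).comp (hl₀ j i))) ?_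
    filter_upwards [t1, t3] with k k1 k3
    apply Complex.ofReal_eq_zero.1
    rw [ofReal_zev_join, re_eq fun i => (k1 j i).2 (h1 i)]
    exact (k3 j).2 h2
  obtain ⟨k, k1, k2, k3, k4⟩ := (t1.and (t2.and (t3.and t4))).exists
  refine ⟨s k, ?_⟩
  rw [GS_eq b F S _ (hη (s k)), GS_eq b F S _ hη₀]
  simp only [k1, k3]
  rw [Set.ext fun j => and_congr_right fun h1 => and_congr_right fun h2 => k4 j h1 h2]
  refine ncard_image_congr fun j hj j' hj' => ?_
  have h5 : ∀ θ θ' : Fin n → ℂ, (∀ i, θ i - (starRingEnd ℂ) (θ i) = 0) →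
      (∀ i, θ' i - (starRingEnd ℂ) (θ' i) = 0) → ∀ i, (θ i).re = (θ' i).re ↔ θ i - θ' i = 0 :=
    fun θ θ' h1 h2 i => by
      rw [sub_eq_zero, ← congrFun (re_eq h1) i, ← congrFun (re_eq h2) i]
      simp
  simp only [funext_iff, P337.ext]
  refine forall_congr' fun i => ?_
  split_ifs with hi
  · rw [h5 _ _ (fun i => (k1 j i).2 (hj.1 i)) fun i => (k1 j' i).2 (hj'.1 i), k2,
      h5 _ _ hj.1 hj'.1]
  · rfl

end Vale.Agent.N337A
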