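import Vale.Agent.N337A.Count
import Vale.Agent.N337A.Defs
import Vale.Agent.P337T.Final

/-!
True sentences with a bounded number of blocks of quantifiers.
-/

namespace Vale.Agent.N337A

open Vale.Agent.Lib.PolyTime hiding C P
open Vale.Agent.P337 Finset

instance : Dec ℕ where
  dec w := val w
  dec_enc := val_enc_nat
  pt := PT.rawVal PT.id

/-- Raw formulas. -/
def RT : List Qu → Type
  | [] => Inst
  | .all :: q => Un × RT q
  | .ex :: q => Un × RT q
  | .cnt :: q => (Un × ℕ) × RT q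
  | .bit :: q => (Un × ℕ) × RT q

instance encRT : (q : List Qu) → Enc (RT q)
  | [] => inferInstanceAs (Enc Inst)
  | .all :: q => letI := encRT q; inferInstanceAs (Enc (Un × RT q))
  | .ex :: q => letI := encRT q; inferInstanceAs (Enc (Un × RT q))
  | .cnt :: q => letI := encRT q; inferInstanceAs (Enc ((Un × ℕ) × RT q))
  | .bit :: q => letI := encRT q; inferInstanceAs (Enc ((Un × ℕ) × RT q))

noncomputable instance decRT : (q : List Qu) → Dec (RT q)
  | [] => inferInstanceAs (Dec Inst)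
  | .all :: q => letI := decRT q; inferInstanceAs (Dec (Un × RT q))
  | .ex :: q => letI := decRT q; inferInstanceAs (Dec (Un × RT q))
  | .cnt :: q => letI := decRT q; inferInstanceAs (Dec ((Un × ℕ) × RT q))
  | .bit :: q => letI := decRT q; inferInstanceAs (Dec ((Un × ℕ) × RT q))

/-- The raw form of a formula. -/
def raw : {q : List Qu} → {n : ℕ} → Prenex q n → RT q
  | _, n, .qf φ => (⟨n⟩, toks (P337T.conv φ))
  | _, _, .all b ψ => (⟨b⟩, raw ψ)
  | _, _, .ex b ψ => (⟨b⟩, raw ψ)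
  | _, _, .cnt b N ψ => ((⟨b⟩, N), raw ψ)
  | _, _, .bit b N ψ => ((⟨b⟩, N), raw ψ)

theorem code_eq {q : List Qu} {n : ℕ} (ψ : Prenex q n) : ψ.code = enc (raw ψ) := by
  induction ψ with
  | qf φ => exact (P337T.sentenceCode_conv _ φ).symm.trans (sentenceCode_eq _ _)
  | all b ψ ih => simp only [Prenex.code, P337T.pair_eq, pair_eq_pr, ih]; rfl
  | ex b ψ ih => simp only [Prenex.code, P337T.pair_eq, pair_eq_pr, ih]; rfl
  | cnt b N ψ ih => simp only [Prenex.code, P337T.pair_eq, pair_eq_pr, ih]; rfl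
  | bit b N ψ ih => simp only [Prenex.code, P337T.pair_eq, pair_eq_pr, ih]; rfl

/-- Evaluation of a list of symbols at a point. -/
noncomputable def ev0 (ts : List Tok) (m : ℕ) (z : Pt) : Bool × List Bool :=
  run (ts.map (ann m fun i => z i))

theorem ev0_toks {n : ℕ} (φ : P337.Formula n) (z : Pt) :
    ev0 (toks φ) n z = (true, [tv (fun i => z i) φ]) := by
  simpa [ev0, run] using run_toks (fun i => z i) φ []

/-- The set defined by a raw formula. -/
def sem : (q : List Qu) → RT q → ℕ → Set Pt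
  | [], I, m => {z | ev0 I.2 m z = (true, [true])}
  | .all :: q, I, m => {y | ∀ x : Fin I.1.v → ℝ, join m y x ∈ sem q I.2 (m + I.1.v)}
  | .ex :: q, I, m => {y | ∃ x : Fin I.1.v → ℝ, join m y x ∈ sem q I.2 (m + I.1.v)}
  | .cnt :: q, I, m => {y | (I.1.2 : ℕ∞) ≤
      {x : Fin I.1.1.v → ℝ | join m y x ∈ sem q I.2 (m + I.1.1.v)}.encard}
  | .bit :: q, I, m => {y | {x : Fin I.1.1.v → ℝ |
      join m y x ∈ sem q I.2 (m + I.1.1.v)}.ncard.testBit I.1.2 = true}

theorem join_eq (n : ℕ) {b : ℕ} (y : Pt) (x : Fin b → ℝ) :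
    (fun i : Fin (n + b) => join n y x i) = Fin.append (fun i : Fin n => y i) x := by
  funext i
  refine Fin.addCases (fun i => ?_) (fun i => ?_) i
  · simp [join]
  · simp [join, ext_val]

theorem sem_raw {q : List Qu} {n : ℕ} (ψ : Prenex q n) :
    ∀ y : Pt, y ∈ sem q (raw ψ) n ↔ ψ.Holds fun i => y i := by
  induction ψ with
  | qf φ => intro y; simp [sem, raw, ev0_toks, tv_iff, P337T.holds_conv, Prenex.Holds]
  | all b ψ ih => intro y; simp [sem, raw, ih, join_eq, Prenex.Holds]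
  | ex b ψ ih => intro y; simp [sem, raw, ih, join_eq, Prenex.Holds]
  | cnt b N ψ ih => intro y; simp [sem, raw, ih, join_eq, Prenex.Holds]
  | bit b N ψ ih => intro y; simp [sem, raw, ih, join_eq, Prenex.Holds]

variable {α : Type} [Enc α]

theorem Df_ev0 {ts : α → List Tok} {m : α → ℕ} (hts : CHF ts) (hm : CHF m) (hmb : PBd m)
    {Ψ : Bool × List Bool → Prop} (hΨ : CHP Ψ) : Df m fun a => {z | Ψ (ev0 (ts a) (m a) z)} := by
  have hL : CHF fun a => (ts a).map Prod.snd := by fun_prop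
  have h1 : SG (rev m) (fun a l => l < ((ts a).map Prod.snd).length)
      fun a l z => rawEval (m a) (((ts a).map Prod.snd).getD l []) z :=
    SG.sum_range (by fun_prop) ((SG.intCast (MC.intCast (by fun_prop))).mul (SG.prod_range
      (by fun_prop) (EB.of_chf hm) ((SG.var hm (by fun_prop) fun _ _ h => h.2).pow (by fun_prop)
        (EB.of_le _ hL.esize fun a x hx => ((single_le_sum (fun _ _ => Nat.zero_le _)
          (mem_range.2 hx.2)).trans (sum_ex_le _ _ hx.1.2)).trans (esize_getD_le _ _ hx.1.1)))))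
  refine (Df.signs hm hmb hL.length (PBd_length hL) h1 (Φ := fun a σ => Ψ (run ((ts a).zip σ)))
    (hΨ.comp (CHF_run.comp (by fun_prop)))).congr fun a z => ?_
  rw [Set.mem_ofPred_eq, zip_eq_map_ann (n := m a) (fun i => z i) (by simp) fun j hj => ?_]
  · rfl
  · rw [evalL_eq _ _ _ z fun _ => rfl, List.getD_eq_getElem _ 0 (by simpa using hj)]
    simp

theorem Df.compl {n : α → ℕ} {S : α → Set Pt} (h : Df n S) : Df n fun a => {z | z ∉ S a} :=
  h.bool2 h (fun _ => le_rfl) (Φ := fun _ p _ => ¬ p) fun _ _ => CHP.const _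

theorem Df_sem (q : List Qu) : ∀ {u : α → RT q} {m : α → ℕ}, CHF u → CHF m → PBd m →
    Df m fun a => sem q (u a) (m a) := by
  induction q with
  | nil =>
    intro u m hu hm hmb
    exact Df_ev0 (CHF.snd (β := Un) hu) hm hmb (CHP.eq CHF.id (CHF.const _))
  | cons k q ih =>
    intro u m hu hm hmb
    have h0 : CHP fun x : α × ℕ => (1 : ℕ∞) ≤ x.2 :=
      (CHP.le (CHF.const 1) CHF.id.snd).congr fun _ => Nat.one_le_cast.symm
    cases k with
    | all =>
      have h1 : CHF fun a => (u a).1 := CHF.fst (γ := RT q) hu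
      exact ((ih (CHF.snd (β := Un) hu) (hm.add h1.unVal) (hmb.add (PBd_unVal h1))).compl.count hm
        h1.unVal (θ := fun _ k => 1 ≤ k) h0 (CHP.const _)).compl.congr fun a y => by simp [sem, Set.Nonempty]
    | ex =>
      have h1 : CHF fun a => (u a).1 := CHF.fst (γ := RT q) hu
      exact ((ih (CHF.snd (β := Un) hu) (hm.add h1.unVal) (hmb.add (PBd_unVal h1))).count hm
        h1.unVal (θ := fun _ k => 1 ≤ k) h0 (CHP.const _)).congr fun a y => by simp [sem, Set.Nonempty]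
    | cnt =>
      have h1 : CHF fun a => (u a).1 := CHF.fst (γ := RT q) hu
      exact (ih (CHF.snd (β := Un × ℕ) hu) (hm.add h1.fst.unVal)
        (hmb.add (PBd_unVal h1.fst))).count hm h1.fst.unVal (θ := fun a k => ((u a).1.2 : ℕ∞) ≤ k)
        ((CHP.le (h1.snd.comp CHF.id.fst) CHF.id.snd).congr fun _ => Nat.cast_le.symm)
        ((CHP.const True).congr fun _ => by simp)
    | bit =>
      have h1 : CHF fun a => (u a).1 := CHF.fst (γ := RT q) hu
      have h2 : CHP fun x : α × ℕ => x.2 / 2 ^ min (u x.1).1.2 x.2.size % 2 = 1 := by fun_prop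
      refine (ih (CHF.snd (β := Un × ℕ) hu) (hm.add h1.fst.unVal)
        (hmb.add (PBd_unVal h1.fst))).count hm h1.fst.unVal
        (θ := fun a k => k.toNat.testBit (u a).1.2 = true) (h2.congr fun x => ?_)
        ((CHP.const False).congr fun _ => by simp)
      rw [ENat.toNat_natCast, Nat.testBit_eq_decide_div_mod_eq, decide_eq_true_eq]
      rcases le_total (u x.1).1.2 x.2.size with h | h
      · rw [min_eq_left h]
      · rw [min_eq_right h, Nat.div_eq_of_lt (Nat.lt_size_self _), Nat.div_eq_of_lt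
          ((Nat.lt_size_self _).trans_le (Nat.pow_le_pow_right two_pos h))]

theorem CHP_valid (q : List Qu) : ∀ {u : α → RT q} {m : α → ℕ}, CHF u → CHF m → PBd m →
    CHP fun a => ∃ ψ : Prenex q (m a), raw ψ = u a := by
  induction q with
  | nil =>
    intro u m hu hm hmb
    have h1 : CHF fun a => (u a).1 := CHF.fst (γ := List Tok) hu
    have h2 : CHF fun a => (u a).2 := CHF.snd (β := Un) hu
    have h3 : CHF fun a => (u a).2.all fun t => t.2.all fun x => decide (x.2.length = m a) := by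
      fun_prop
    refine (((CHP.eq h1.unVal hm).and (CHP.of_bool h3)).and (((Df_ev0 h2 hm hmb
      (Ψ := fun s => s.1 = true ∧ s.2.length = 1) (by fun_prop)).proj (CHF.const 0)
        fun _ => Nat.zero_le _).top 0)).congr fun a => ⟨?_, ?_⟩
    · rintro ⟨⟨h4, h5⟩, z, -, h6, h7⟩
      obtain ⟨φs, h8, h9⟩ := exists_parse (n := m a) (fun i => z i) (u a).2
        (by simpa [WF] using h5) h6
      rw [ev0, h9, List.length_map] at h7
      obtain ⟨φ, rfl⟩ := List.length_eq_one_iff.1 h7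
      obtain ⟨φ, rfl⟩ := P337T.conv_surjective φ
      exact ⟨.qf φ, Prod.ext (congrArg Un.mk h4.symm) (by simpa [raw] using h8.symm)⟩
    · rintro ⟨ψ, h4⟩
      cases ψ with
      | qf φ =>
        rw [← h4]
        exact ⟨⟨rfl, by simpa [WF, raw] using WF_toks (P337T.conv φ)⟩, 0, fun _ _ => rfl,
          by simp [raw, ev0_toks]⟩
  | cons k q ih =>
    intro u m hu hm hmb
    cases k with
    | all =>
      have h1 : CHF fun a => (u a).1 := CHF.fst (γ := RT q) hu
      refine (ih (CHF.snd (β := Un) hu) (hm.add h1.unVal) (hmb.add (PBd_unVal h1))).congr fun a =>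
        ⟨fun ⟨ψ, h⟩ => ⟨.all _ ψ, Prod.ext rfl h⟩, fun ⟨ψ, h⟩ => ?_⟩
      cases ψ with | all b ψ => exact h ▸ ⟨ψ, rfl⟩
    | ex =>
      have h1 : CHF fun a => (u a).1 := CHF.fst (γ := RT q) hu
      refine (ih (CHF.snd (β := Un) hu) (hm.add h1.unVal) (hmb.add (PBd_unVal h1))).congr fun a =>
        ⟨fun ⟨ψ, h⟩ => ⟨.ex _ ψ, Prod.ext rfl h⟩, fun ⟨ψ, h⟩ => ?_⟩
      cases ψ with | ex b ψ => exact h ▸ ⟨ψ, rfl⟩
    | cnt =>
      have h1 : CHF fun a => (u a).1 := CHF.fst (γ := RT q) hu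
      refine (ih (CHF.snd (β := Un × ℕ) hu) (hm.add h1.fst.unVal)
        (hmb.add (PBd_unVal h1.fst))).congr fun a =>
          ⟨fun ⟨ψ, h⟩ => ⟨.cnt _ (u a).1.2 ψ, Prod.ext rfl h⟩, fun ⟨ψ, h⟩ => ?_⟩
      cases ψ with | cnt b N ψ => exact h ▸ ⟨ψ, rfl⟩
    | bit =>
      have h1 : CHF fun a => (u a).1 := CHF.fst (γ := RT q) hu
      refine (ih (CHF.snd (β := Un × ℕ) hu) (hm.add h1.fst.unVal)
        (hmb.add (PBd_unVal h1.fst))).congr fun a =>
          ⟨fun ⟨ψ, h⟩ => ⟨.bit _ (u a).1.2 ψ, Prod.ext rfl h⟩, fun ⟨ψ, h⟩ => ?_⟩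
      cases ψ with | bit b N ψ => exact h ▸ ⟨ψ, rfl⟩

theorem Th_mem_CH (k : List Qu) : Th k ∈ CH := by
  have h1 := codes_mem_CH ((CHP_valid k (u := fun a => a) CHF.id (CHF.const 0) (PBd.const 0)).and
    ((Df_sem k (u := fun a => a) CHF.id (CHF.const 0) (PBd.const 0)).top 0))
  have h2 : (fun i : Fin 0 => (0 : Pt) i) = Fin.elim0 := funext fun i => i.elim0
  refine (Set.ext fun w => ⟨?_, ?_⟩ : Th k = _) ▸ h1
  · rintro ⟨ψ, rfl, h⟩
    exact ⟨_, code_eq ψ, ⟨ψ, rfl⟩, (sem_raw ψ 0).2 (h2 ▸ h)⟩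
  · rintro ⟨_, rfl, ⟨ψ, rfl⟩, h⟩
    exact ⟨ψ, (code_eq ψ).symm, h2 ▸ (sem_raw ψ 0).1 h⟩

theorem main (k : List Qu) : Th k ∈ P337T.CH ∧ ∃ j, Red (Th k) ⊆ P337T.C j := by
  obtain ⟨j, hj⟩ := mem_CH.1 (Th_mem_CH k)
  refine ⟨Set.mem_iUnion.2 ⟨j, P337T.C_subset j hj⟩, j + 1, ?_⟩
  rintro L ⟨f, hf, hL⟩
  have h1 : FP (Th k) f := FP.subst ((FP.const [false]).congr fun x => by simp [Lib.PolyTime.chi])
    (polyTimeFun_iff.1 (P337T.polyTime_iff.1 hf))
  exact P337T.C_subset _
    (mem_C_succ_of_FP hj ((FP.oracle.comp h1).congr fun x => P337.chi_congr (hL x).symm))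

end Vale.Agent.N337A
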