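import Mathlib.NumberTheory.Bertrand
import Mathlib.Data.ZMod.Basic
import Mathlib.Algebra.Field.ZMod
import Mathlib.Tactic

/-!
Isolation by hashing and greedy covering.
-/

namespace Vale.Agent.N337A

open Finset

theorem dcount {α β : Type} (s : Finset α) (t : Finset β) (r : α → β → Prop)
    [∀ a b, Decidable (r a b)] :
    ∑ a ∈ s, (t.filter fun b => r a b).card = ∑ b ∈ t, (s.filter fun a => r a b).card := by
  simp only [card_filter]
  exact sum_comm

theorem hash_one {p θ : ℕ} (hθ : θ ≤ p) (k : ℕ) :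
    p * θ ≤ ((range p ×ˢ range p).filter fun x => (x.1 * k + x.2) % p < θ).card := by
  rw [card_filter, sum_product]
  have h : ∀ a ∈ range p, θ ≤ ∑ b ∈ range p, if (a * k + b) % p < θ then 1 else 0 := by
    intro a ha
    have hp : 0 < p := lt_of_le_of_lt (Nat.zero_le _) (mem_range.1 ha)
    rw [← card_filter]
    have h1 : (range θ).card ≤ ((range p).filter fun b => (a * k + b) % p < θ).card := by
      refine card_le_card_of_surjOn (fun b => (a * k + b) % p) fun v hv => ?_
      have hv' : v < θ := mem_range.1 (mem_coe.1 hv)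
      have e : (a * k + (v + (p - 1) * (a * k)) % p) % p = v := by
        rw [Nat.add_mod_mod]
        obtain ⟨q, rfl⟩ : ∃ q, p = q + 1 := ⟨p - 1, by omega⟩
        have : a * k + (v + (q + 1 - 1) * (a * k)) = v + (q + 1) * (a * k) := by
          rw [Nat.add_sub_cancel]
          ring
        rw [this, Nat.add_mul_mod_self_left, Nat.mod_eq_of_lt (by omega)]
      refine ⟨(v + (p - 1) * (a * k)) % p, mem_coe.2 (mem_filter.2
        ⟨mem_range.2 (Nat.mod_lt _ hp), ?_⟩), e⟩
      rw [e]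
      exact hv'
    rwa [card_range] at h1
  have h2 := sum_le_sum h
  rwa [sum_const, card_range, smul_eq_mul] at h2

theorem hash_two {p θ k k' : ℕ} (hp : p.Prime) (hk : k < p) (hk' : k' < p) (hne : k ≠ k') :
    ((range p ×ˢ range p).filter fun x =>
      (x.1 * k + x.2) % p < θ ∧ (x.1 * k' + x.2) % p < θ).card ≤ θ * θ := by
  have : Fact p.Prime := ⟨hp⟩
  have hinj : ∀ a b : ℕ, a < p → b < p → (a : ZMod p) = b → a = b := by
    intro a b ha hb h
    have := (ZMod.natCast_eq_natCast_iff' a b p).1 h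
    rwa [Nat.mod_eq_of_lt ha, Nat.mod_eq_of_lt hb] at this
  have h1 : ((range p ×ˢ range p).filter fun x =>
      (x.1 * k + x.2) % p < θ ∧ (x.1 * k' + x.2) % p < θ).card ≤ (range θ ×ˢ range θ).card := by
    refine card_le_card_of_injOn (fun x => ((x.1 * k + x.2) % p, (x.1 * k' + x.2) % p))
      (fun x hx => ?_) fun x hx y hy h => ?_
    · have := (mem_filter.1 (mem_coe.1 hx)).2
      exact mem_coe.2 (mem_product.2 ⟨mem_range.2 this.1, mem_range.2 this.2⟩)
    · have hx' := mem_product.1 (mem_filter.1 (mem_coe.1 hx)).1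
      have hy' := mem_product.1 (mem_filter.1 (mem_coe.1 hy)).1
      have e1 := (ZMod.natCast_eq_natCast_iff' _ _ p).2 (congrArg Prod.fst h)
      have e2 := (ZMod.natCast_eq_natCast_iff' _ _ p).2 (congrArg Prod.snd h)
      push_cast at e1 e2
      have hkk : (k : ZMod p) - k' ≠ 0 := fun h => hne (hinj _ _ hk hk' (sub_eq_zero.1 h))
      have e3 : (x.1 : ZMod p) = y.1 := by
        apply mul_right_cancel₀ hkk
        linear_combination e1 - e2
      have e4 : (x.2 : ZMod p) = y.2 := by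
        linear_combination e1 - (k : ZMod p) * e3
      exact Prod.ext (hinj _ _ (mem_range.1 hx'.1) (mem_range.1 hy'.1) e3)
        (hinj _ _ (mem_range.1 hx'.2) (mem_range.1 hy'.2) e4)
  rwa [card_product, card_range] at h1

theorem hash_good {p θ : ℕ} (hp : p.Prime) (A : Finset ℕ) (hA : ∀ k ∈ A, k < p)
    (h1 : 2 * (A.card * θ) ≤ p) (h2 : p < 4 * (A.card * θ)) :
    p * p ≤ 8 * ((range p ×ˢ range p).filter fun x =>
      (A.filter fun k => (x.1 * k + x.2) % p < θ).card = 1).card := by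
  have hm : 0 < A.card := by
    rcases Nat.eq_zero_or_pos A.card with h | h
    · rw [h] at h2
      omega
    · exact h
  have hθ : θ ≤ p := by nlinarith
  have a1 : A.card * (p * θ) ≤ ∑ x ∈ range p ×ˢ range p,
      (A.filter fun k => (x.1 * k + x.2) % p < θ).card := by
    rw [dcount (range p ×ˢ range p) A fun x k => (x.1 * k + x.2) % p < θ]
    have := sum_le_sum fun k (_ : k ∈ A) => hash_one hθ k
    rwa [sum_const, smul_eq_mul] at this
  have a2 : ∑ x ∈ range p ×ˢ range p, (A.offDiag.filter fun q =>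
      (x.1 * q.1 + x.2) % p < θ ∧ (x.1 * q.2 + x.2) % p < θ).card ≤
      A.card * A.card * (θ * θ) := by
    rw [dcount (range p ×ˢ range p) A.offDiag fun x q =>
      (x.1 * q.1 + x.2) % p < θ ∧ (x.1 * q.2 + x.2) % p < θ]
    have := sum_le_sum fun q (hq : q ∈ A.offDiag) => hash_two (θ := θ) hp
      (hA _ (mem_offDiag.1 hq).1) (hA _ (mem_offDiag.1 hq).2.1) (mem_offDiag.1 hq).2.2
    rw [sum_const, smul_eq_mul, offDiag_card] at this
    exact this.trans (Nat.mul_le_mul_right _ (Nat.sub_le _ _))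
  have a3 : ∀ x ∈ range p ×ˢ range p, (A.filter fun k => (x.1 * k + x.2) % p < θ).card ≤
      (if (A.filter fun k => (x.1 * k + x.2) % p < θ).card = 1 then 1 else 0) +
        (A.offDiag.filter fun q =>
          (x.1 * q.1 + x.2) % p < θ ∧ (x.1 * q.2 + x.2) % p < θ).card := by
    intro x _
    have b1 : (A.filter fun k => (x.1 * k + x.2) % p < θ).offDiag.card ≤
        (A.offDiag.filter fun q =>
          (x.1 * q.1 + x.2) % p < θ ∧ (x.1 * q.2 + x.2) % p < θ).card := by
      refine card_le_card fun q hq => ?_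
      obtain ⟨c1, c2, c3⟩ := mem_offDiag.1 hq
      exact mem_filter.2 ⟨mem_offDiag.2 ⟨(mem_filter.1 c1).1, (mem_filter.1 c2).1, c3⟩,
        (mem_filter.1 c1).2, (mem_filter.1 c2).2⟩
    rw [offDiag_card] at b1
    generalize (A.filter fun k => (x.1 * k + x.2) % p < θ).card = N at b1 ⊢
    split_ifs with hN
    · omega
    · rcases Nat.eq_zero_or_pos N with h0 | h0
      · omega
      · have : 2 * N ≤ N * N := Nat.mul_le_mul_right N (by omega)
        omega
  have a4 := sum_le_sum a3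
  rw [sum_add_distrib, ← card_filter] at a4
  generalize ((range p ×ˢ range p).filter fun x =>
      (A.filter fun k => (x.1 * k + x.2) % p < θ).card = 1).card = c at a4 ⊢
  have a5 : A.card * θ * p ≤ c + A.card * θ * (A.card * θ) := by nlinarith
  generalize A.card * θ = w at h1 h2 a5
  obtain ⟨u, rfl⟩ := Nat.exists_eq_add_of_le h1
  obtain ⟨v, hv⟩ := Nat.exists_eq_add_of_le h2.le
  nlinarith

theorem pow_succ_ge (L n : ℕ) : L ^ (n + 1) + (n + 1) * L ^ n ≤ (L + 1) ^ (n + 1) := by
  induction n with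
  | zero => simp
  | succ n ih =>
    calc L ^ (n + 1 + 1) + (n + 1 + 1) * L ^ (n + 1)
        ≤ (L ^ (n + 1) + (n + 1) * L ^ n) * (L + 1) := by
          have : (L ^ (n + 1) + (n + 1) * L ^ n) * (L + 1) =
            L ^ (n + 1 + 1) + (n + 1 + 1) * L ^ (n + 1) + (n + 1) * L ^ n := by ring
          omega
      _ ≤ (L + 1) ^ (n + 1) * (L + 1) := Nat.mul_le_mul_right _ ih
      _ = _ := by ring

theorem greedy {ι W : Type} (X : Finset ι) (Ω : Finset W) (hΩ : Ω.Nonempty) (R : W → ι → Prop)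
    [∀ w x, Decidable (R w x)] {L t : ℕ}
    (h : ∀ x ∈ X, Ω.card ≤ (L + 1) * (Ω.filter fun w => R w x).card) (hX : X.card < 2 ^ t) :
    ∃ ω : ℕ → W, (∀ r, ω r ∈ Ω) ∧ ∀ x ∈ X, ∃ r < (L + 1) * t, R (ω r) x := by
  classical
  have step : ∀ Y ⊆ X, ∃ w ∈ Ω, (L + 1) * (Y.filter fun x => ¬ R w x).card ≤ L * Y.card := by
    intro Y hY
    have h1 : ∑ _w ∈ Ω, Y.card ≤ ∑ w ∈ Ω, (L + 1) * (Y.filter fun x => R w x).card := by
      rw [← mul_sum, dcount Ω Y R, mul_sum, sum_const, smul_eq_mul, mul_comm, ← smul_eq_mul,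
        ← sum_const]
      exact sum_le_sum fun x hx => h x (hY hx)
    obtain ⟨w, hw, h2⟩ := exists_le_of_sum_le hΩ h1
    refine ⟨w, hw, ?_⟩
    have h3 := card_filter_add_card_filter_not (s := Y) fun x => R w x
    nlinarith
  have main : ∀ r, ∃ ω : ℕ → W, (∀ j, ω j ∈ Ω) ∧
      (L + 1) ^ r * (X.filter fun x => ∀ j < r, ¬ R (ω j) x).card ≤ L ^ r * X.card := by
    intro r
    induction r with
    | zero =>
      obtain ⟨w, hw⟩ := hΩ
      refine ⟨fun _ => w, fun _ => hw, ?_⟩
      rw [pow_zero, pow_zero]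
      exact Nat.mul_le_mul_left _ (card_filter_le _ _)
    | succ r ih =>
      obtain ⟨ω, h1, h2⟩ := ih
      obtain ⟨w, hw, h3⟩ := step (X.filter fun x => ∀ j < r, ¬ R (ω j) x) (filter_subset _ _)
      refine ⟨fun j => if j = r then w else ω j, fun j => ?_, ?_⟩
      · simp only
        split_ifs
        · exact hw
        · exact h1 j
      · have h4 : (X.filter fun x => ∀ j < r + 1, ¬ R (if j = r then w else ω j) x).card ≤
            ((X.filter fun x => ∀ j < r, ¬ R (ω j) x).filter fun x => ¬ R w x).card := by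
          refine card_le_card fun x hx => ?_
          obtain ⟨c1, c2⟩ := mem_filter.1 hx
          refine mem_filter.2 ⟨mem_filter.2 ⟨c1, fun j hj => ?_⟩, ?_⟩
          · have := c2 j (by omega)
            rwa [if_neg hj.ne] at this
          · have := c2 r (by omega)
            rwa [if_pos rfl] at this
        calc _ ≤ (L + 1) ^ r * ((L + 1) *
              ((X.filter fun x => ∀ j < r, ¬ R (ω j) x).filter fun x => ¬ R w x).card) := by
              rw [pow_succ, mul_assoc]
              exact Nat.mul_le_mul_left _ (Nat.mul_le_mul_left _ h4)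
          _ ≤ (L + 1) ^ r * (L * (X.filter fun x => ∀ j < r, ¬ R (ω j) x).card) :=
              Nat.mul_le_mul_left _ h3
          _ = L * ((L + 1) ^ r * (X.filter fun x => ∀ j < r, ¬ R (ω j) x).card) := by ring
          _ ≤ L * (L ^ r * X.card) := Nat.mul_le_mul_left _ h2
          _ = _ := by ring
  obtain ⟨ω, h1, h2⟩ := main ((L + 1) * t)
  refine ⟨ω, h1, fun x hx => ?_⟩
  by_contra hcon
  have h3 : 1 ≤ (X.filter fun x => ∀ j < (L + 1) * t, ¬ R (ω j) x).card :=
    card_pos.2 ⟨x, mem_filter.2 ⟨hx, fun j hj hr => hcon ⟨j, hj, hr⟩⟩⟩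
  have h4 : 2 * L ^ (L + 1) ≤ (L + 1) ^ (L + 1) := by
    have c1 := pow_succ_ge L L
    have c2 : L ^ (L + 1) ≤ (L + 1) * L ^ L := by
      rw [pow_succ, mul_comm]
      exact Nat.mul_le_mul_right _ (Nat.le_succ L)
    omega
  have h5 : 2 ^ t * L ^ ((L + 1) * t) ≤ (L + 1) ^ ((L + 1) * t) := by
    rw [pow_mul, pow_mul, ← mul_pow]
    exact Nat.pow_le_pow_left h4 t
  have h6 : 0 < (L + 1) ^ ((L + 1) * t) := Nat.pow_pos (Nat.succ_pos L)
  have h7 : (L + 1) ^ ((L + 1) * t) ≤ L ^ ((L + 1) * t) * X.card :=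
    le_trans (Nat.le_mul_of_pos_right _ h3) h2
  generalize (L + 1) ^ ((L + 1) * t) = u at h5 h6 h7
  generalize L ^ ((L + 1) * t) = v at h5 h7
  rcases Nat.eq_zero_or_pos v with rfl | hv
  · omega
  · nlinarith

theorem exists_tests {ι : Type} (X : Finset ι) (co : ι → ℕ) (A : ι → Finset ℕ) {n d t : ℕ}
    (hn : 0 < n) (hco : ∀ x ∈ X, co x < n)
    (hA : ∀ x ∈ X, (A x).Nonempty ∧ A x ⊆ range (d + 1)) (hX : X.card < 2 ^ t)
    (hd : d + 1 ≤ 2 ^ t) :
    ∃ p ≤ 2 ^ (t + 2), ∃ i a b θ : ℕ → ℕ,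
      (∀ r, i r < n ∧ a r < p ∧ b r < p ∧ θ r ≤ 2 ^ (t + 2)) ∧
      ∀ x ∈ X, ∃ r < 8 * n * (t + 2) * t, i r = co x ∧
        ((A x).filter fun k => (a r * k + b r) % p < θ r).card = 1 := by
  obtain ⟨p, hp, hp1, hp2⟩ := Nat.exists_prime_lt_and_le_two_mul (2 * (d + 1)) (by omega)
  have hp3 : p ≤ 2 ^ (t + 2) := by
    rw [pow_add]
    omega
  obtain ⟨L, hL⟩ : ∃ L, 8 * n * (t + 2) = L + 1 := ⟨8 * n * (t + 2) - 1, by
    have : 0 < 8 * n * (t + 2) := by positivity
    omega⟩
  have hcov : ∀ x ∈ X, (range n ×ˢ (range p ×ˢ range p) ×ˢ range (t + 2)).card ≤ (L + 1) *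
      ((range n ×ˢ (range p ×ˢ range p) ×ˢ range (t + 2)).filter fun w => w.1 = co x ∧
        ((A x).filter fun k => (w.2.1.1 * k + w.2.1.2) % p < 2 ^ w.2.2).card = 1).card := by
    intro x hx
    obtain ⟨c1, c2⟩ := hA x hx
    have c3 : 0 < (A x).card := c1.card_pos
    have c4 : (A x).card ≤ d + 1 := by simpa using card_le_card c2
    have c5 : ∃ j, p < 4 * ((A x).card * 2 ^ j) := by
      refine ⟨t + 1, ?_⟩
      have : 1 * 2 ^ (t + 1) ≤ (A x).card * 2 ^ (t + 1) := Nat.mul_le_mul_right _ c3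
      rw [pow_succ] at this ⊢
      omega
    obtain ⟨j, c6, c7⟩ : ∃ j, 2 * ((A x).card * 2 ^ j) ≤ p ∧ p < 4 * ((A x).card * 2 ^ j) := by
      refine ⟨Nat.find c5, ?_, Nat.find_spec c5⟩
      rcases Nat.eq_zero_or_pos (Nat.find c5) with h | h
      · rw [h]
        omega
      · have := Nat.find_min c5 (Nat.sub_lt h Nat.one_pos)
        obtain ⟨j, hj⟩ : ∃ j, Nat.find c5 = j + 1 := ⟨Nat.find c5 - 1, by omega⟩
        rw [hj, Nat.add_sub_cancel] at this
        rw [hj, pow_succ, ← mul_assoc (A x).card]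
        omega
    have c8 : j < t + 2 := by
      have : 2 ^ j < 2 ^ (t + 2) := by
        have : 0 < 2 ^ j := by positivity
        nlinarith
      exact (Nat.pow_lt_pow_iff_right (by omega)).1 this
    have c9 := hash_good hp (A x) (fun k hk => by
      have := mem_range.1 (c2 hk)
      omega) c6 c7
    have c10 : ((range p ×ˢ range p).filter fun y =>
        ((A x).filter fun k => (y.1 * k + y.2) % p < 2 ^ j).card = 1).card ≤
        ((range n ×ˢ (range p ×ˢ range p) ×ˢ range (t + 2)).filter fun w => w.1 = co x ∧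
          ((A x).filter fun k => (w.2.1.1 * k + w.2.1.2) % p < 2 ^ w.2.2).card = 1).card := by
      refine card_le_card_of_injOn (fun y => (co x, y, j)) (fun y hy => ?_) fun y _ y' _ h => ?_
      · obtain ⟨e1, e2⟩ := mem_filter.1 (mem_coe.1 hy)
        exact mem_coe.2 (mem_filter.2 ⟨mem_product.2 ⟨mem_range.2 (hco x hx),
          mem_product.2 ⟨e1, mem_range.2 c8⟩⟩, rfl, e2⟩)
      · exact congrArg (fun w => w.2.1) h
    rw [← hL, card_product, card_product, card_product, card_range, card_range, card_range]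
    calc n * (p * p * (t + 2)) = n * (t + 2) * (p * p) := by ring
      _ ≤ n * (t + 2) * (8 * _) :=
          Nat.mul_le_mul_left _ (c9.trans (Nat.mul_le_mul_left _ c10))
      _ = _ := by ring
  obtain ⟨ω, h1, h2⟩ := greedy X (range n ×ˢ (range p ×ˢ range p) ×ˢ range (t + 2))
    ⟨(0, (0, 0), 0), by simp [hn, hp.pos]⟩
    (fun w x => w.1 = co x ∧
      ((A x).filter fun k => (w.2.1.1 * k + w.2.1.2) % p < 2 ^ w.2.2).card = 1)
    hcov hX
  refine ⟨p, hp3, fun r => (ω r).1, fun r => (ω r).2.1.1, fun r => (ω r).2.1.2,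
    fun r => 2 ^ (ω r).2.2, fun r => ?_, fun x hx => ?_⟩
  · have := h1 r
    simp only [mem_product, mem_range] at this
    exact ⟨this.1, this.2.1.1, this.2.1.2, Nat.pow_le_pow_right (by omega) this.2.2.le⟩
  · rw [hL]
    exact h2 x hx

end Vale.Agent.N337A
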