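import Vale.Agent.P337.CH.CoreCH

/-!
Functions of a real point that are given by succinct families of integer polynomials.
-/

namespace Vale.Agent.N337A

open Vale.Agent.Lib.PolyTime Vale.Agent.P337 Finset

/-- Points. -/
abbrev Pt : Type := ℕ → ℝ

/-- Evaluation of an integer polynomial in `N` variables. -/
noncomputable def zev {R : Type} [CommRing R] (N : ℕ) (v : ℕ → R) :
    MvPolynomial (Fin N) ℤ →+* R :=
  MvPolynomial.eval₂Hom (Int.castRingHom R) fun i => v i

theorem map_zev {R S : Type} [CommRing R] [CommRing S] (φ : R →+* S) (N : ℕ) (v : ℕ → R)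
    (F : MvPolynomial (Fin N) ℤ) : φ (zev N v F) = zev N (fun i => φ (v i)) F := by
  rw [zev, MvPolynomial.map_eval₂Hom, RingHom.ext_int (φ.comp _) (Int.castRingHom S)]
  rfl

theorem zev_congr {R : Type} [CommRing R] {N : ℕ} {v w : ℕ → R} (h : ∀ i < N, v i = w i) :
    zev N v = zev N w := by
  unfold zev
  congr 1
  funext i
  exact h i i.2

theorem zev_XN {R : Type} [CommRing R] {N i : ℕ} (v : ℕ → R) (h : i < N) :
    zev N v (XN N ℤ i) = v i := by
  simp [zev, XN, h]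

theorem zev_eq_aeval (N : ℕ) (z : Pt) (F : MvPolynomial (Fin N) ℤ) :
    zev N z F = MvPolynomial.aeval (fun i : Fin N => z i) F := by
  rw [MvPolynomial.aeval_def, algebraMap_int_eq]
  rfl

theorem zev_eq_sum {R : Type} [CommRing R] {N M : ℕ} (v : ℕ → R) {F : MvPolynomial (Fin N) ℤ}
    (hF : F.totalDegree ≤ M) : zev N v F = ∑ x : Fin N → Fin (M + 1),
      ((F.coeff (Finsupp.equivFunOnFinite.symm fun i => (x i : ℕ)) : ℤ) : R) *
        ∏ i : Fin N, v i ^ (x i : ℕ) := by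
  classical
  have hinj : Function.Injective fun x : Fin N → Fin (M + 1) =>
      (Finsupp.equivFunOnFinite.symm fun i => (x i : ℕ) : Fin N →₀ ℕ) := by
    intro x y h
    funext i
    exact Fin.ext (congrFun (Finsupp.equivFunOnFinite.symm.injective h) i)
  have h1 := sum_image (s := univ) (g := fun x : Fin N → Fin (M + 1) =>
      (Finsupp.equivFunOnFinite.symm fun i => (x i : ℕ) : Fin N →₀ ℕ))
    (f := fun d => ((F.coeff d : ℤ) : R) * ∏ i : Fin N, v i ^ d i) hinj.injOn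
  simp only [Finsupp.coe_equivFunOnFinite_symm] at h1
  rw [← h1, zev, MvPolynomial.coe_eval₂Hom, MvPolynomial.eval₂_eq']
  refine sum_subset (fun d hd => ?_) fun d _ hd => ?_
  · refine mem_image.2 ⟨fun i => ⟨d i, Nat.lt_succ_of_le ?_⟩, mem_univ _, ?_⟩
    · exact ((MvPolynomial.monomial_le_degreeOf i hd).trans
        (MvPolynomial.degreeOf_le_totalDegree F i)).trans hF
    · ext i
      simp
  · rw [MvPolynomial.notMem_support_iff.1 hd]
    simp

theorem continuous_zev {K : Type} [NormedField K] (N : ℕ) (F : MvPolynomial (Fin N) ℤ) :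
    Continuous fun z : ℕ → K => zev N z F := by
  simp only [zev_eq_sum _ (le_refl F.totalDegree)]
  fun_prop

variable {α α' β β' : Type} [Enc α] [Enc α'] [Enc β] [Enc β'] {P : Type} [Enc P]
  {R : α → Type} [∀ a, CommRing (R a)] [∀ a, PRing P (R a)] {D D' : α → β → Prop}

theorem MR_zev {n : α → ℕ} (hn : CHF n) (hnb : PBd n)
    {F : (a : α) → β → MvPolynomial (Fin (n a)) ℤ}
    (hF : MR (R := fun a => MvPolynomial (Fin (n a)) ℤ) D F) {v : (a : α) → β → ℕ → R a}
    (hv : MR (fun a (x : β × ℕ) => D a x.1 ∧ x.2 < n a) (fun a x => v a x.1 x.2)) :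
    MR D (fun a b => zev (n a) (v a b) (F a b)) := by
  obtain ⟨M, hM, hM'⟩ := hF.totalDegree
  have h1 : MR D (fun a b => ∑ s ∈ range ((M a + 1) ^ n a),
      (((F a b).coeff (Finsupp.equivFunOnFinite.symm fun i : Fin (n a) =>
        (digs (M a + 1) (n a) s).getD i 0) : ℤ) : R a) *
        ∏ i ∈ range (n a), v a b i ^ (digs (M a + 1) (n a) s).getD i 0) := by
    refine MR.sum_range (by fun_prop) (MR.mul (MR.intCast (MR.toMC (MR.mvCoeff (R := fun _ => ℤ)
      hn hnb (hF.weak fun _ _ h => h.1) (fun a x i => (digs (M a + 1) (n a) x.2).getD i 0)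
      (by fun_prop) fun _ _ _ _ => rfl))) (MR.prod_range (by fun_prop) (EB.of_chf hn)
      (MR.pow (hv.reindex (fun _ (y : (β × ℕ) × ℕ) => (y.1.1, y.2)) (by fun_prop)
        fun a y hy => ⟨hy.1.1, hy.2⟩) (by fun_prop)
        (EB.of_le M hM fun a y hy => ?_))))
    rw [getD_digs _ _ _ hy.2]
    exact Nat.lt_succ_iff.1 (Nat.mod_lt _ (Nat.succ_pos _))
  refine h1.congr' fun a b hab => ?_
  rw [zev_eq_sum _ (hM' a b hab)]
  simp only [prod_range]
  exact sum_digs (M a + 1) (n a) fun t =>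
    (((F a b).coeff (Finsupp.equivFunOnFinite.symm t) : ℤ) : R a) * ∏ i : Fin (n a), v a b i ^ t i

theorem MR_curry {J : α → ℕ} (hJ : CHF J) {F : (a : α) → ℕ → R a}
    (hF : MR0 (R := fun x : α × ℕ => R x.1) (fun x => F x.1 x.2)) :
    MR (fun a s => s < J a) F := by
  obtain ⟨⟨⟨T, hT, h1⟩, ⟨e, he, h2⟩⟩, M, hM, h3⟩ := hF
  obtain ⟨V, hV, hV'⟩ := CHF.exists_bound (f := fun a s => T (a, s)) hT hJ
  obtain ⟨W, hW, hW'⟩ := CHF.exists_bound (f := fun a s => M (a, s)) hM hJ
  refine ⟨⟨⟨V, hV, (h1.comp (u := fun y : (α × ℕ × P) × ℕ =>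
      (((y.1.1, y.1.2.1), ((), y.1.2.2)), y.2)) (by fun_prop)).congr fun y hy _ =>
        ⟨⟨trivial, (hV' _ _ hy.1).trans_lt hy.2⟩, rfl⟩⟩,
    ⟨fun x => e ((x.1, x.2.1), ((), x.2.2)), by fun_prop, fun a x _ => h2 (a, x.1) ((), x.2) trivial⟩⟩,
    W, hW, fun a s hs => PRing.dg_mono (hW' a s hs) (h3 (a, s) () trivial)⟩

variable {S : α → Type} [∀ a, CommRing (S a)]

/-- `f a b z` is the value at the point `z` of an `MR` family. -/
def SG (ev : (a : α) → Pt → R a →+* S a) (D : α → β → Prop) (f : (a : α) → β → Pt → S a) :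
    Prop :=
  ∃ F : (a : α) → β → R a, MR D F ∧ ∀ a b z, D a b → f a b z = ev a z (F a b)

/-- Families depending on the instance only. -/
abbrev SG0 (ev : (a : α) → Pt → R a →+* S a) (f : (a : α) → Pt → S a) : Prop :=
  SG ev (fun _ (_ : Unit) => True) fun a _ => f a

variable {ev : (a : α) → Pt → R a →+* S a} {f g : (a : α) → β → Pt → S a}

namespace SG

theorem congr (hf : SG ev D f) (h : ∀ a b, D' a b → D a b ∧ ∀ z, f a b z = g a b z) :
    SG ev D' g := by
  obtain ⟨F, h1, h2⟩ := hf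
  exact ⟨F, h1.mono fun a b hab => (h a b hab).1,
    fun a b z hab => ((h a b hab).2 z).symm.trans (h2 a b z (h a b hab).1)⟩

theorem mono (hf : SG ev D f) (h : ∀ a b, D' a b → D a b) : SG ev D' f :=
  hf.congr fun a b hab => ⟨h a b hab, fun _ => rfl⟩

theorem congr' (hf : SG ev D f) (h : ∀ a b z, D a b → f a b z = g a b z) : SG ev D g :=
  hf.congr fun a b hab => ⟨hab, fun z => h a b z hab⟩

theorem comp (hf : SG ev D f) {u : α' → α} {v : α' → β' → β} (hu : CHF u)
    (hv : CHF (fun x : α' × β' => v x.1 x.2)) :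
    SG (R := fun a => R (u a)) (S := fun a => S (u a)) (fun a => ev (u a))
      (fun a b => D (u a) (v a b)) (fun a b => f (u a) (v a b)) := by
  obtain ⟨F, h1, h2⟩ := hf
  exact ⟨_, h1.comp hu hv, fun a b z hab => h2 _ _ z hab⟩

theorem reindex (hf : SG ev D f) {E : α → β' → Prop} (v : α → β' → β)
    (hv : CHF (fun x : α × β' => v x.1 x.2)) (h : ∀ a b, E a b → D a (v a b)) :
    SG ev E (fun a b => f a (v a b)) :=
  (hf.comp (u := fun a => a) CHF.id hv).mono h

theorem weak (hf : SG ev D f) {E : α → β × β' → Prop} (h : ∀ a x, E a x → D a x.1) :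
    SG ev E (fun a x => f a x.1) :=
  hf.reindex (fun _ (x : β × β') => x.1) (by fun_prop) h

theorem inst {f : (a : α) → Pt → S a} (hf : SG0 ev f) : SG ev D (fun a _ => f a) :=
  hf.reindex (fun _ _ => ()) (by fun_prop) fun _ _ _ => trivial

theorem curry {J : α → ℕ} (hJ : CHF J) {f : (a : α) → ℕ → Pt → S a}
    (hf : SG0 (R := fun x : α × ℕ => R x.1) (S := fun x => S x.1) (fun x => ev x.1)
      (fun x => f x.1 x.2)) : SG ev (fun a s => s < J a) f := by
  obtain ⟨F, h1, h2⟩ := hf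
  exact ⟨fun a s => F (a, s) (), MR_curry hJ h1, fun a s z _ => h2 (a, s) () z trivial⟩

theorem intCast {h : α → β → ℤ} (hh : MC D h) : SG ev D (fun a b _ => ((h a b : ℤ) : S a)) :=
  ⟨_, MR.intCast hh, fun _ _ _ _ => (map_intCast _ _).symm⟩

theorem natCast {h : α → β → ℕ} (hh : CHF (fun x : α × β => h x.1 x.2)) :
    SG ev D (fun a b _ => ((h a b : ℕ) : S a)) :=
  ⟨_, MR.natCast' hh, fun _ _ _ _ => (map_natCast _ _).symm⟩

theorem zero : SG ev D (fun a _ _ => (0 : S a)) :=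
  ⟨_, MR.zero, fun _ _ _ _ => (map_zero _).symm⟩

theorem one : SG ev D (fun a _ _ => (1 : S a)) :=
  ⟨_, MR.one, fun _ _ _ _ => (map_one _).symm⟩

theorem add (hf : SG ev D f) (hg : SG ev D g) : SG ev D (fun a b z => f a b z + g a b z) := by
  obtain ⟨F, h1, h2⟩ := hf
  obtain ⟨G, h3, h4⟩ := hg
  exact ⟨_, h1.add h3, fun a b z hab => by dsimp only; rw [map_add, h2 a b z hab, h4 a b z hab]⟩

theorem mul (hf : SG ev D f) (hg : SG ev D g) : SG ev D (fun a b z => f a b z * g a b z) := by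
  obtain ⟨F, h1, h2⟩ := hf
  obtain ⟨G, h3, h4⟩ := hg
  exact ⟨_, h1.mul h3, fun a b z hab => by dsimp only; rw [map_mul, h2 a b z hab, h4 a b z hab]⟩

theorem neg (hf : SG ev D f) : SG ev D (fun a b z => - f a b z) := by
  obtain ⟨F, h1, h2⟩ := hf
  exact ⟨_, h1.neg, fun a b z hab => by dsimp only; rw [map_neg, h2 a b z hab]⟩

theorem sub (hf : SG ev D f) (hg : SG ev D g) : SG ev D (fun a b z => f a b z - g a b z) :=
  (hf.add hg.neg).congr' fun _ _ _ _ => (sub_eq_add_neg _ _).symm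

theorem pow (hf : SG ev D f) {k : α → β → ℕ} (hk : CHF (fun x : α × β => k x.1 x.2))
    (hb : EB D k) : SG ev D (fun a b z => f a b z ^ k a b) := by
  obtain ⟨F, h1, h2⟩ := hf
  exact ⟨_, h1.pow hk hb, fun a b z hab => by dsimp only; rw [map_pow, h2 a b z hab]⟩

theorem sq (hf : SG ev D f) : SG ev D (fun a b z => f a b z ^ 2) :=
  (hf.mul hf).congr' fun _ _ _ _ => (pow_two _).symm

theorem ite {q : α → β → Prop} {inst : ∀ a b, Decidable (q a b)}
    (hq : CHP (fun x : α × β => q x.1 x.2)) (hf : SG ev (fun a b => D a b ∧ q a b) f)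
    (hg : SG ev (fun a b => D a b ∧ ¬ q a b) g) :
    SG ev D (fun a b z => @_root_.ite _ (q a b) (inst a b) (f a b z) (g a b z)) := by
  obtain ⟨F, h1, h2⟩ := hf
  obtain ⟨G, h3, h4⟩ := hg
  refine ⟨_, MR.ite (inst := inst) hq h1 h3, fun a b z hab => ?_⟩
  dsimp only
  split_ifs with h
  · exact h2 a b z ⟨hab, h⟩
  · exact h4 a b z ⟨hab, h⟩

theorem sum_range {m : α → β → ℕ} (hm : CHF (fun x : α × β => m x.1 x.2))
    {H : (a : α) → β → ℕ → Pt → S a}
    (hH : SG ev (fun a (x : β × ℕ) => D a x.1 ∧ x.2 < m a x.1) (fun a x => H a x.1 x.2)) :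
    SG ev D (fun a b z => ∑ s ∈ range (m a b), H a b s z) := by
  obtain ⟨F, h1, h2⟩ := hH
  refine ⟨_, MR.sum_range hm (H := fun a b s => F a (b, s)) h1, fun a b z hab => ?_⟩
  rw [map_sum]
  exact sum_congr rfl fun s hs => h2 a (b, s) z ⟨hab, mem_range.1 hs⟩

theorem prod_range {m : α → β → ℕ} (hm : CHF (fun x : α × β => m x.1 x.2)) (hb : EB D m)
    {H : (a : α) → β → ℕ → Pt → S a}
    (hH : SG ev (fun a (x : β × ℕ) => D a x.1 ∧ x.2 < m a x.1) (fun a x => H a x.1 x.2)) :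
    SG ev D (fun a b z => ∏ s ∈ range (m a b), H a b s z) := by
  obtain ⟨F, h1, h2⟩ := hH
  refine ⟨_, MR.prod_range hm hb (H := fun a b s => F a (b, s)) h1, fun a b z hab => ?_⟩
  rw [map_prod]
  exact prod_congr rfl fun s hs => h2 a (b, s) z ⟨hab, mem_range.1 hs⟩

theorem zev {n : α → ℕ} (hn : CHF n) (hnb : PBd n)
    {F : (a : α) → β → MvPolynomial (Fin (n a)) ℤ}
    (hF : MR (R := fun a => MvPolynomial (Fin (n a)) ℤ) D F) {v : (a : α) → β → ℕ → Pt → S a}
    (hv : SG ev (fun a (x : β × ℕ) => D a x.1 ∧ x.2 < n a) (fun a x => v a x.1 x.2)) :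
    SG ev D (fun a b z => zev (n a) (fun i => v a b i z) (F a b)) := by
  obtain ⟨V, h1, h2⟩ := hv
  refine ⟨_, MR_zev hn hnb hF (v := fun a b i => V a (b, i)) h1, fun a b z hab => ?_⟩
  dsimp only
  rw [map_zev, zev_congr (v := fun i => v a b i z) fun i hi => h2 a (b, i) z ⟨hab, hi⟩]

end SG

/-- Univariate polynomials. -/
noncomputable def pev (ev : (a : α) → Pt → R a →+* S a) (a : α) (z : Pt) :
    Polynomial (R a) →+* Polynomial (S a) := Polynomial.mapRingHom (ev a z)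

/-- Multivariate polynomials. -/
noncomputable def mev (n : α → ℕ) (ev : (a : α) → Pt → R a →+* S a) (a : α) (z : Pt) :
    MvPolynomial (Fin (n a)) (R a) →+* MvPolynomial (Fin (n a)) (S a) :=
  MvPolynomial.map (ev a z)

/-- Real values. -/
noncomputable def rev (N : α → ℕ) (a : α) (z : Pt) : MvPolynomial (Fin (N a)) ℤ →+* ℝ :=
  zev (N a) z

namespace SG

theorem polyC (hf : SG ev D f) : SG (pev ev) D (fun a b z => Polynomial.C (f a b z)) := by
  obtain ⟨F, h1, h2⟩ := hf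
  exact ⟨_, h1.polyC, fun a b z hab => by
    dsimp only; rw [h2 a b z hab]; exact (Polynomial.map_C _).symm⟩

theorem polyX : SG (pev ev) D (fun _ _ _ => Polynomial.X) :=
  ⟨_, MR.polyX, fun _ _ _ _ => (Polynomial.map_X _).symm⟩

theorem polyCoeff {H : (a : α) → β → Pt → Polynomial (S a)} (hH : SG (pev ev) D H)
    {k : α → β → ℕ} (hk : CHF (fun x : α × β => k x.1 x.2)) :
    SG ev D (fun a b z => (H a b z).coeff (k a b)) := by
  obtain ⟨F, h1, h2⟩ := hH
  exact ⟨_, h1.polyCoeff hk, fun a b z hab => by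
    dsimp only; rw [h2 a b z hab]; exact Polynomial.coeff_map _ _⟩

theorem natDegree {H : (a : α) → β → Pt → Polynomial (S a)} (hH : SG (pev ev) D H) :
    ∃ M : α → ℕ, CHF M ∧ ∀ a b z, D a b → (H a b z).natDegree ≤ M a := by
  obtain ⟨F, h1, h2⟩ := hH
  obtain ⟨M, hM, hM'⟩ := h1.natDegree
  exact ⟨M, hM, fun a b z hab => by
    rw [h2 a b z hab]; exact Polynomial.natDegree_map_le.trans (hM' a b hab)⟩

theorem natDegree₂ {H : (a : α) → β → Pt → Polynomial (Polynomial (S a))}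
    (hH : SG (pev (pev ev)) D H) : ∃ M : α → ℕ, CHF M ∧ ∀ a b z, D a b →
      (H a b z).natDegree ≤ M a ∧ ∀ k, ((H a b z).coeff k).natDegree ≤ M a := by
  obtain ⟨M, hM, hM'⟩ := hH.natDegree
  obtain ⟨M', hM2, hM2'⟩ := (polyCoeff (hH.weak (E := fun a (x : β × ℕ) => D a x.1)
    fun _ _ h => h) (k := fun _ x => x.2) (by fun_prop)).natDegree
  exact ⟨fun a => M a + M' a, by fun_prop, fun a b z hab =>
    ⟨(hM' a b z hab).trans (Nat.le_add_right _ _),
      fun k => (hM2' a (b, k) z hab).trans (Nat.le_add_left _ _)⟩⟩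

/-- Iterated derivatives. -/
theorem iterDeriv {H : (a : α) → β → Pt → Polynomial (S a)} (hH : SG (pev ev) D H)
    {k : α → β → ℕ} (hk : CHF (fun x : α × β => k x.1 x.2)) :
    SG (pev ev) D (fun a b z => Polynomial.derivative^[k a b] (H a b z)) := by
  obtain ⟨M, hM, hM'⟩ := hH.natDegree
  have hk' : CHF (fun x : α × β × ℕ => k x.1 x.2.1) :=
    hk.comp (f := fun x : α × β × ℕ => (x.1, x.2.1)) (by fun_prop)
  have h1 : SG (pev ev) D (fun a b z => ∑ j ∈ range (M a + 1),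
      Polynomial.C ((((j + k a b).descFactorial (k a b) : ℤ) : S a) * (H a b z).coeff (j + k a b)) *
        Polynomial.X ^ j) :=
    sum_range (by fun_prop) (mul (polyC (mul (intCast (MC.descFactorial (by fun_prop) hk'))
      (polyCoeff (hH.weak fun _ _ h => h.1) (by fun_prop))))
      (pow polyX (by fun_prop) (EB.of_le (fun a => M a + 1) (by fun_prop) fun _ _ h => h.2.le)))
  refine h1.congr' fun a b z hab => ?_
  have h2 : (Polynomial.derivative^[k a b] (H a b z)).natDegree < M a + 1 :=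
    Nat.lt_succ_of_le ((Polynomial.natDegree_iterate_derivative _ _).trans
      ((Nat.sub_le _ _).trans (hM' a b z hab)))
  conv_rhs => rw [Polynomial.as_sum_range' _ _ h2]
  refine sum_congr rfl fun j _ => ?_
  rw [Polynomial.coeff_iterate_derivative, Polynomial.C_mul_X_pow_eq_monomial, nsmul_eq_mul,
    Int.cast_natCast]

/-- Values of polynomials. -/
theorem polyEval {H : (a : α) → β → Pt → Polynomial (S a)} (hH : SG (pev ev) D H)
    (hf : SG ev D f) : SG ev D (fun a b z => (H a b z).eval (f a b z)) := by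
  obtain ⟨M, hM, hM'⟩ := hH.natDegree
  have h1 : SG ev D (fun a b z => ∑ j ∈ range (M a + 1), (H a b z).coeff j * f a b z ^ j) :=
    sum_range (by fun_prop) (mul (polyCoeff (hH.weak fun _ _ h => h.1) (by fun_prop))
      (pow (hf.weak fun _ _ h => h.1) (by fun_prop)
        (EB.of_le (fun a => M a + 1) (by fun_prop) fun _ _ h => h.2.le)))
  exact h1.congr' fun a b z hab =>
    (Polynomial.eval_eq_sum_range' (Nat.lt_succ_of_le (hM' a b z hab)) _).symm

variable {n : α → ℕ}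

theorem mvC (hf : SG ev D f) : SG (mev n ev) D (fun a b z => MvPolynomial.C (f a b z)) := by
  obtain ⟨F, h1, h2⟩ := hf
  exact ⟨_, h1.mvC, fun a b z hab => by
    dsimp only; rw [h2 a b z hab]; exact (MvPolynomial.map_C _ _).symm⟩

theorem mvX (hn : CHF n) {i : α → β → ℕ} (hi : CHF (fun x : α × β => i x.1 x.2)) :
    SG (mev n ev) D (fun a b _ => XN (n a) (S a) (i a b)) := by
  refine ⟨_, (MR_XN (R := R) hn).at hi, fun a b z _ => ?_⟩
  dsimp only
  unfold XN mev
  split_ifs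
  · exact (MvPolynomial.map_X _ _).symm
  · exact (map_zero _).symm

theorem totalDegree {H : (a : α) → β → Pt → MvPolynomial (Fin (n a)) (S a)}
    (hH : SG (mev n ev) D H) :
    ∃ M : α → ℕ, CHF M ∧ ∀ a b z, D a b → (H a b z).totalDegree ≤ M a := by
  obtain ⟨F, h1, h2⟩ := hH
  obtain ⟨M, hM, hM'⟩ := h1.totalDegree
  exact ⟨M, hM, fun a b z hab => by
    rw [h2 a b z hab]; exact (totalDegree_map_le' _ _).trans (hM' a b hab)⟩

theorem pderiv (hn : CHF n) (hnb : PBd n) {H : (a : α) → Pt → MvPolynomial (Fin (n a)) (S a)}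
    (hH : SG0 (mev n ev) H) : SG (mev n ev) (fun a (i : ℕ) => i < n a)
      (fun a i z => ext (fun j => MvPolynomial.pderiv j (H a z)) i) := by
  obtain ⟨F, h1, h2⟩ := hH
  refine ⟨fun a i => ext (fun j => MvPolynomial.pderiv j (F a ())) i,
    MR.pderiv hn hnb (H := fun a _ => F a ()) (MR0.inst h1) (fun _ i => i) (by fun_prop)
      fun _ i hi => ⟨⟨i, hi⟩, rfl, ext_val _ ⟨i, hi⟩⟩, fun a i z hi => ?_⟩
  have h3 := h2 a () z trivial
  dsimp only at h3 ⊢
  rw [h3, ext_val _ ⟨i, hi⟩, ext_val _ ⟨i, hi⟩]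
  exact MvPolynomial.pderiv_map

theorem EE {e K : α → ℕ} (hn : CHF n) (hnb : PBd n) (he : CHF e) (hK : CHF K)
    {r : (a : α) → ℕ → Pt → MvPolynomial (Fin (n a)) (S a)}
    (hr : SG (mev n ev) (fun a (i : ℕ) => i < n a) r)
    {H : (a : α) → β → Pt → MvPolynomial (Fin (n a)) (S a)} (hH : SG (mev n ev) D H)
    {k : α → β → ℕ} (hk : CHF (fun x : α × β => k x.1 x.2)) :
    SG ev D (fun a b z => EE (e a) (K a) (fun i : Fin (n a) => r a i z) (H a b z) (k a b)) := by
  obtain ⟨F, h1, h2⟩ := hr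
  obtain ⟨G, h3, h4⟩ := hH
  refine ⟨_, MR_EE (r := fun a i => F a i) hn hnb he hK
    (MR1_ext (R := fun a => MvPolynomial (Fin (n a)) (R a)) hn F h1 fun _ _ => rfl) h3 hk,
    fun a b z hab => ?_⟩
  dsimp only
  rw [map_EE, h4 a b z hab]
  congr 1
  funext i
  exact h2 a i z i.2

/-- Coordinates. -/
theorem var {N : α → ℕ} (hN : CHF N) {i : α → β → ℕ} (hi : CHF (fun x : α × β => i x.1 x.2))
    (h : ∀ a b, D a b → i a b < N a) : SG (rev N) D (fun a b z => z (i a b)) :=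
  ⟨_, (MR_XN (R := fun _ => ℤ) hN).at hi, fun a b z hab => (zev_XN z (h a b hab)).symm⟩

/-- Renaming of variables. -/
theorem rename {N N' : α → ℕ} (hN : CHF N) (hNb : PBd N) (hN' : CHF N') {f : α → β → Pt → ℝ}
    (hf : SG (rev N) D f) (σ : α → ℕ → ℕ) (hσ : CHF (fun x : α × ℕ => σ x.1 x.2))
    (h : ∀ a, ∀ i < N a, σ a i < N' a) :
    SG (rev N') D (fun a b z => f a b fun i => z (σ a i)) := by
  obtain ⟨F, h1, h2⟩ := hf
  exact (zev hN hNb h1 (v := fun a _ i z => z (σ a i)) (var hN'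
    (hσ.comp (f := fun x : α × β × ℕ => (x.1, x.2.2)) (by fun_prop))
    fun a x hx => h a _ hx.2)).congr' fun a b z hab => (h2 a b _ hab).symm

theorem more {N N' : α → ℕ} (hN : CHF N) (hNb : PBd N) (hN' : CHF N') {f : α → β → Pt → ℝ}
    (hf : SG (rev N) D f) (h : ∀ a, N a ≤ N' a) : SG (rev N') D f :=
  rename hN hNb hN' hf (fun _ i => i) (by fun_prop) fun a _ hi => hi.trans_le (h a)

theorem dep {N : α → ℕ} {f : α → β → Pt → ℝ} (hf : SG (rev N) D f) {a : α} {b : β} (hab : D a b)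
    {z z' : Pt} (h : ∀ i < N a, z i = z' i) : f a b z = f a b z' := by
  obtain ⟨F, -, h2⟩ := hf
  rw [h2 a b z hab, h2 a b z' hab, rev, rev, zev_congr h]

theorem continuous {N : α → ℕ} {f : α → β → Pt → ℝ} (hf : SG (rev N) D f) {a : α} {b : β}
    (hab : D a b) : Continuous (f a b) := by
  obtain ⟨F, -, h2⟩ := hf
  rw [show f a b = fun z => N337A.zev (N a) z (F a b) from funext fun z => h2 a b z hab]
  exact continuous_zev _ _

/-- The existence of a zero is decidable in the counting hierarchy. -/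
theorem core {N : α → ℕ} (hN : CHF N) (hNb : PBd N) {f : α → Pt → ℝ} (hf : SG0 (rev N) f)
    (h0 : ∀ a z, 0 ≤ f a z) : CHP (fun a => ∃ z, f a z = 0) := by
  obtain ⟨F, h1, h2⟩ := hf
  obtain ⟨M, hM, hM'⟩ := h1.totalDegree
  have h3 : ∀ a (x : Fin (N a) → ℝ), MvPolynomial.aeval x (F a ()) = f a (ext x) := by
    intro a x
    have := h2 a () (ext x) trivial
    dsimp only at this
    rw [this, rev, zev_eq_aeval]
    simp only [ext_val]
  refine (core_CHP hN hNb hM (Q := fun a => F a ()) h1 (fun a => hM' a () trivial)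
    fun a x => h3 a x ▸ h0 a _).congr fun a => ⟨fun ⟨x, hx⟩ => ⟨_, h3 a x ▸ hx⟩, fun ⟨z, hz⟩ => ?_⟩
  refine ⟨fun i => z i, ?_⟩
  rw [← zev_eq_aeval]
  exact (h2 a () z trivial).symm.trans hz

end SG

end Vale.Agent.N337A
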