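import Vale.Agent.N337A.Delin
import Vale.Agent.P337.StepA

/-!
Families of subsets of real space that are stratified by succinct polynomials and whose
membership problem at uniquely determined points lies in the counting hierarchy.
-/

namespace Vale.Agent.N337A

open Vale.Agent.Lib.PolyTime hiding C P
open Vale.Agent.P337 Finset Filter Topology

variable {α γ : Type} [Enc α] [Enc γ]

/-- The first `n` coordinates are the same. -/
def agree (n : ℕ) (z w : Pt) : Prop := ∀ i < n, z i = w i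

theorem agree.symm {n : ℕ} {z w : Pt} (h : agree n z w) : agree n w z := fun i hi => (h i hi).symm

theorem agree.trans {n : ℕ} {z w v : Pt} (h : agree n z w) (h' : agree n w v) : agree n z v :=
  fun i hi => (h i hi).trans (h' i hi)

theorem agree.mono {m n : ℕ} {z w : Pt} (h : agree n z w) (h' : m ≤ n) : agree m z w :=
  fun i hi => h i (hi.trans_le h')

/-- Nonnegative succinct polynomial functions of the first `N` coordinates. -/
structure NG (N : α → ℕ) (f : α → Pt → ℝ) : Prop where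
  chf : CHF N
  pbd : PBd N
  sg : SG0 (rev N) f
  nn : ∀ a z, 0 ≤ f a z

/-- Moving the coordinates with numbers from `m` on. -/
def sh (m K : ℕ) (z : Pt) (i : ℕ) : ℝ := z (if i < m then i else K + i)

/-- The equations `f = 0` and `E = 0`, sharing only the first `m` variables. -/
def glue (m K : ℕ) (f E : Pt → ℝ) (z : Pt) : ℝ := f (sh m K z) + E z

theorem agree_sh (m K : ℕ) (z : Pt) : agree m (sh m K z) z := fun i hi => by rw [sh, if_pos hi]

theorem continuous_sh (m K : ℕ) : Continuous (sh m K) := continuous_pi fun _ => continuous_apply _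

namespace NG

variable {N K : α → ℕ} {f g E : α → Pt → ℝ}

theorem comp (h : NG N f) {u : γ → α} (hu : CHF u) : NG (fun c => N (u c)) fun c => f (u c) :=
  ⟨h.chf.comp hu, PBd_comp h.pbd hu, h.sg.comp hu (v := fun _ _ => ()) (CHF.const _),
    fun _ => h.nn _⟩

theorem more (h : NG N f) (hK : CHF K) (hKb : PBd K) (hle : ∀ a, N a ≤ K a) : NG K f :=
  ⟨hK, hKb, h.sg.more h.chf h.pbd hK hle, h.nn⟩

theorem add (hf : NG N f) (hg : NG N g) : NG N fun a z => f a z + g a z :=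
  ⟨hf.chf, hf.pbd, hf.sg.add hg.sg, fun a z => add_nonneg (hf.nn a z) (hg.nn a z)⟩

theorem dep (h : NG N f) (a : α) {z w : Pt} (hz : agree (N a) z w) : f a z = f a w :=
  h.sg.dep (b := ()) trivial hz

theorem cont (h : NG N f) (a : α) : Continuous (f a) := h.sg.continuous (b := ()) trivial

theorem core (h : NG N f) : CHP fun a => ∃ z, f a z = 0 := h.sg.core h.chf h.pbd h.nn

theorem glue (hf : NG N f) (hE : NG K E) {m : α → ℕ} (hm : CHF m) :
    NG (fun a => K a + N a) fun a => glue (m a) (K a) (f a) (E a) := by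
  have h1 := hE.chf
  have h2 := hE.chf.add hf.chf
  refine ⟨h2, hE.pbd.add hf.pbd, (hf.sg.rename hf.chf hf.pbd h2
    (fun a i => if i < m a then i else K a + i) (by fun_prop) fun a i hi => ?_).add
      (hE.more h2 (hE.pbd.add hf.pbd) fun _ => Nat.le_add_right _ _).sg,
    fun a z => add_nonneg (hf.nn _ _) (hE.nn _ _)⟩
  split_ifs <;> omega

theorem exists_glue (hE : NG K E) {a : α} {m : ℕ} (hm : m ≤ K a) {f : Pt → ℝ} {w z : Pt}
    (hw : f w = 0) (hz : E a z = 0) (h : agree m w z) :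
    ∃ v, N337A.glue m (K a) f (E a) v = 0 ∧ agree (K a) v z := by
  have h1 : agree (K a) (fun i => if i < K a then z i else w (i - K a)) z := fun i hi => if_pos hi
  refine ⟨_, ?_, h1⟩
  rw [N337A.glue, hE.dep a h1, hz, add_zero, ← hw]
  congr 1
  funext i
  unfold sh
  split_ifs with h2
  · exact (if_pos (h2.trans_le hm)).trans (h i h2).symm
  · simp

theorem core₂ (hf : NG N f) (hg : NG N g) (hE : NG K E) {T : α → Pt → Pt → Prop}
    (h1 : ∀ a v, E a v = 0 → T a v fun i => v (N a + i))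
    (h2 : ∀ a z w, T a z w → ∃ v, agree (N a) v z ∧ agree (N a) (fun i => v (N a + i)) w ∧
      E a v = 0) : CHP fun a => ∃ z w, f a z = 0 ∧ g a w = 0 ∧ T a z w := by
  have h3 := hg.glue hf (CHF.const 0)
  have h4 := h3.chf.add hE.chf
  have h5 := h3.pbd.add hE.pbd
  refine ((h3.more h4 h5 fun _ => Nat.le_add_right _ _).add
    (hE.more h4 h5 fun _ => Nat.le_add_left _ _)).core.congr fun a => ⟨fun ⟨v, hv⟩ => ?_, ?_⟩
  · rw [add_eq_zero_iff_of_nonneg (h3.nn _ _) (hE.nn _ _), N337A.glue,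
      add_eq_zero_iff_of_nonneg (hg.nn _ _) (hf.nn _ _)] at hv
    exact ⟨v, _, hv.1.2, hv.1.1, h1 a v hv.2⟩
  · rintro ⟨z, w, hz, hw, h⟩
    obtain ⟨v, h6, h7, h8⟩ := h2 a z w h
    exact ⟨v, by rw [h8, add_zero, N337A.glue, hf.dep a h6, hz, add_zero, ← hw]; exact hg.dep a h7⟩

/-- Two zeros that agree on a block of coordinates. -/
theorem same (hf : NG N f) (hg : NG N g) {m b : α → ℕ} (hm : CHF m) (hb : CHF b)
    (h : ∀ a, m a + b a ≤ N a) :
    CHP fun a => ∃ z w, f a z = 0 ∧ g a w = 0 ∧ ∀ i < b a, z (m a + i) = w (m a + i) := by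
  have h1 := hf.chf
  have h2 := h1.add h1
  refine core₂ hf hg (E := fun a v => ∑ i ∈ range (b a), (v (m a + i) - v (N a + (m a + i))) ^ 2)
    ⟨h2, hf.pbd.add hf.pbd, SG.sum_range (m := fun a _ => b a) (by fun_prop)
      ((SG.var h2 (by fun_prop) fun a x hx => ?_).sub
        (SG.var h2 (by fun_prop) fun a x hx => ?_)).sq,
      fun _ _ => sum_nonneg fun _ _ => sq_nonneg _⟩ (fun a v hv i hi => ?_) fun a z w hz =>
    ⟨fun i => if i < N a then z i else w (i - N a), fun i hi => if_pos hi, fun i _ => by simp,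
      sum_eq_zero fun i hi => ?_⟩
  · have := h a
    omega
  · have := h a
    omega
  · exact sub_eq_zero.1 (pow_eq_zero_iff two_ne_zero |>.1
      ((sum_eq_zero_iff_of_nonneg fun _ _ => sq_nonneg _).1 hv i (mem_range.2 hi)))
  · have := h a
    have := mem_range.1 hi
    simp [show m a + i < N a by omega, hz i this]

end NG

/-- The equation `f = 0` has solutions, and all of them begin like `y`. -/
def Pin (n : ℕ) (f : Pt → ℝ) (y : Pt) : Prop := (∃ z, f z = 0) ∧ ∀ z, f z = 0 → agree n z y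

theorem NG.uq {N n : α → ℕ} {f : α → Pt → ℝ} (hf : NG N f) (hn : CHF n) (h : ∀ a, n a ≤ N a) :
    CHP fun a => ∃ y, Pin (n a) (f a) y := by
  have h1 := hf.chf
  have h2 : CHF fun a => N a + N a + 1 := by fun_prop
  have h3 : CHP fun a => ∃ z w, f a z = 0 ∧ f a w = 0 ∧ ∃ i < n a, z i ≠ w i := by
    refine NG.core₂ hf hf (E := fun a v =>
        ∏ i ∈ range (n a), ((v i - v (N a + i)) * v (N a + N a) - 1) ^ 2)
      ⟨h2, (hf.pbd.add hf.pbd).add (PBd.const 1), SG.prod_range (m := fun a _ => n a)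
        (by fun_prop) (EB.of_chf hn) ((((SG.var h2 (by fun_prop) fun a x hx => ?_).sub
          (SG.var h2 (by fun_prop) fun a x hx => ?_)).mul
            (SG.var h2 (by fun_prop) fun a x hx => by omega)).sub SG.one).sq,
        fun _ _ => prod_nonneg fun _ _ => sq_nonneg _⟩ (fun a v hv => ?_)
      fun a z w ⟨i, hi, hz⟩ => ⟨fun j => if j < N a then z j else if j < N a + N a then
        w (j - N a) else (z i - w i)⁻¹, fun j hj => if_pos hj, fun j hj => by simp [hj],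
        prod_eq_zero (mem_range.2 hi) ?_⟩
    · have := h a
      omega
    · have := h a
      omega
    · obtain ⟨i, hi, h4⟩ := prod_eq_zero_iff.1 hv
      exact ⟨i, mem_range.1 hi, fun h5 => by simp [← h5] at h4⟩
    · simp [hi.trans_le (h a), mul_inv_cancel₀ (sub_ne_zero.2 hz)]
  refine (hf.core.and h3.not).congr fun a => ⟨fun ⟨⟨z, hz⟩, h4⟩ => ⟨z, ⟨z, hz⟩, fun w hw i hi =>
    not_not.1 fun h5 => h4 ⟨w, z, hw, hz, i, hi, h5⟩⟩, fun ⟨y, h4, h5⟩ => ⟨h4, ?_⟩⟩
  rintro ⟨z, w, hz, hw, i, hi, h6⟩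
  exact h6 ((h5 z hz i hi).trans (h5 w hw i hi).symm)

/-- Stratifications. -/
def Strat (n : α → ℕ) (S : α → Set Pt) : Prop :=
  ∃ N f, NG N f ∧ (∀ a, n a ≤ N a) ∧ (∀ a y, ∃ z, agree (n a) z y ∧ f a z = 0) ∧
    ∀ a, LC (f a) (S a)

/-- Decision at uniquely determined points. -/
def Dcd (n : α → ℕ) (S : α → Set Pt) : Prop :=
  ∀ (γ : Type) [Enc γ] (u : γ → α) (N : γ → ℕ) (f : γ → Pt → ℝ), CHF u → NG N f →
    ∃ r : γ → Prop, CHP r ∧ ∀ c y, Pin (n (u c)) (f c) y → (r c ↔ y ∈ S (u c))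

/-- Good families of sets. -/
structure Df (n : α → ℕ) (S : α → Set Pt) : Prop where
  chf : CHF n
  pbd : PBd n
  dep : ∀ a z w, agree (n a) z w → (z ∈ S a ↔ w ∈ S a)
  strat : Strat n S
  dcd : Dcd n S

theorem Strat.union {n K J : α → ℕ} {S : α → Set Pt} (hK : CHF K) (hKb : PBd K) (hJ : CHF J)
    {Q : α × ℕ → Pt → ℝ} (hQ : NG (fun x : α × ℕ => K x.1) Q)
    (hn : ∀ a, n a ≤ K a) (h1 : ∀ a y, ∃ s < J a, ∃ z, agree (n a) z y ∧ Q (a, s) z = 0)
    (h2 : ∀ a s, LC (Q (a, s)) (S a)) : Strat n S := by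
  refine ⟨K, fun a z => ∏ s ∈ range (J a), Q (a, s) z, ⟨hK, hKb, SG.prod_range
    (m := fun a _ => J a) (by fun_prop) (EB.of_chf hJ) ((SG.curry hJ (f := fun a s => Q (a, s)) hQ.sg).reindex
      (fun _ (x : Unit × ℕ) => x.2) (by fun_prop) fun _ _ h => h.2),
    fun a z => prod_nonneg fun s _ => hQ.nn (a, s) z⟩, hn, fun a y => ?_,
    fun a => LC.of_exists fun z z₀ hz hf => ?_⟩
  · obtain ⟨s, hs, z, h3, h4⟩ := h1 a y
    exact ⟨z, h3, prod_eq_zero (mem_range.2 hs) h4⟩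
  · obtain ⟨s, -, h3⟩ : ∃ s ∈ range (J a), ∃ᶠ k in atTop, Q (a, s) (z k) = 0 := by
      by_contra h
      simp only [not_exists, not_and, not_frequently] at h
      obtain ⟨k, hk⟩ := ((eventually_all_finset _).2 h).exists
      obtain ⟨s, hs, h3⟩ := prod_eq_zero_iff.1 (hf k)
      exact hk s hs h3
    obtain ⟨φ, hφ, h4⟩ := extraction_of_frequently_atTop h3
    obtain ⟨k, hk⟩ := (h2 a s (z ∘ φ) z₀ (hz.comp hφ.tendsto_atTop) (.of_forall h4)).exists
    exact ⟨_, hk⟩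

theorem zero_of_tendsto {f : Pt → ℝ} (hf : Continuous f) {z : ℕ → Pt} {z₀ : Pt}
    (hz : Tendsto z atTop (𝓝 z₀)) (h : ∀ᶠ k in atTop, f (z k) = 0) : f z₀ = 0 :=
  tendsto_nhds_unique ((hf.tendsto z₀).comp hz) (tendsto_const_nhds.congr' (h.mono fun _ => .symm))

theorem CHP_bool {Φ : α → Prop → Prop} (hΦ : ∀ p, CHP fun a => Φ a p) {r : α → Prop}
    (hr : CHP r) : CHP fun a => Φ a (r a) :=
  ((hr.and (hΦ True)).or (hr.not.and (hΦ False))).congr fun a => by
    by_cases h : r a <;> simp [h]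

namespace Df

variable {n m : α → ℕ} {S T : α → Set Pt}

theorem congr (h : Df n S) (h' : ∀ a z, z ∈ S a ↔ z ∈ T a) : Df n T :=
  (funext fun a => Set.ext (h' a) : S = T) ▸ h

theorem top (h : Df (fun _ => 0) S) (y : Pt) : CHP fun a => y ∈ S a := by
  obtain ⟨r, h1, h2⟩ := h.dcd α (fun a => a) (fun _ => 0) (fun _ _ => 0) CHF.id
    ⟨CHF.const _, PBd.const _, SG.zero, fun _ _ => le_rfl⟩
  exact h1.congr fun a => h2 a y ⟨⟨y, rfl⟩, fun _ _ _ h => absurd h (Nat.not_lt_zero _)⟩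

theorem bool2 (h₁ : Df m S) (h₂ : Df n T) (hn : ∀ a, m a ≤ n a) {Φ : α → Prop → Prop → Prop}
    (hΦ : ∀ p q, CHP fun a => Φ a p q) : Df n fun a => {z | Φ a (z ∈ S a) (z ∈ T a)} := by
  refine ⟨h₂.chf, h₂.pbd, fun a z w h => ?_, ?_, fun γ _ u N f hu hf => ?_⟩
  · rw [Set.mem_ofPred_eq, Set.mem_ofPred_eq, h₁.dep a z w (h.mono (hn a)), h₂.dep a z w h]
  · obtain ⟨N, f, hf, -, h2, h3⟩ := h₁.strat
    obtain ⟨K, E, hE, h4, h5, h6⟩ := h₂.strat
    refine ⟨_, _, hf.glue hE h₁.chf, fun a => (h4 a).trans (Nat.le_add_right _ _), fun a y => ?_,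
      fun a z z₀ hz h7 => ?_⟩
    · obtain ⟨w, h7, h8⟩ := h2 a y
      obtain ⟨z, h9, h10⟩ := h5 a y
      obtain ⟨v, h11, h12⟩ := hE.exists_glue ((hn a).trans (h4 a)) h8 h10
        (h7.trans (h9.symm.mono (hn a)))
      exact ⟨v, (h12.mono (h4 a)).trans h9, h11⟩
    · simp only [glue, add_eq_zero_iff_of_nonneg (hf.nn _ _) (hE.nn _ _)] at h7
      filter_upwards [h3 a _ _ (((continuous_sh (m a) (K a)).tendsto _).comp hz)
        (h7.mono fun _ h => h.1), h6 a _ _ hz (h7.mono fun _ h => h.2)] with k k1 k2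
      rw [Function.comp_apply, h₁.dep _ _ _ (agree_sh _ _ _), h₁.dep _ _ _ (agree_sh _ _ _)] at k1
      rw [k1, k2]
  · obtain ⟨r, h1, h2⟩ := h₁.dcd γ u N f hu hf
    obtain ⟨r', h3, h4⟩ := h₂.dcd γ u N f hu hf
    refine ⟨fun c => Φ (u c) (r c) (r' c), CHP_bool (Φ := fun c q => Φ (u c) (r c) q)
      (fun q => CHP_bool (Φ := fun c p => Φ (u c) p q) (fun p => (hΦ p q).comp hu) h1) h3,
      fun c y hy => ?_⟩
    rw [Set.mem_ofPred_eq, ← h2 c y ⟨hy.1, fun z hz => (hy.2 z hz).mono (hn _)⟩, ← h4 c y hy]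

theorem cells {K J : α → ℕ} (hn : CHF n) (hK : CHF K) (hKb : PBd K) (hJ : CHF J)
    (hS : ∀ a z w, agree (n a) z w → (z ∈ S a ↔ w ∈ S a))
    {Q : α × ℕ → Pt → ℝ} (hQ : NG (fun x : α × ℕ => K x.1) Q)
    (hnK : ∀ a, n a ≤ K a) (h1 : ∀ a y, ∃ s < J a, ∃ z, agree (n a) z y ∧ Q (a, s) z = 0)
    {t : α × ℕ → Prop} (ht : CHP t) (h2 : ∀ a s z, Q (a, s) z = 0 → (z ∈ S a ↔ t (a, s))) :
    Df n S := by
  refine ⟨hn, hKb.mono hnK, hS, Strat.union hK hKb hJ hQ hnK h1 fun a s z z₀ hz h => ?_,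
    fun γ _ u N f hu hf => ?_⟩
  · exact h.mono fun k hk => (h2 a s _ hk).trans
      (h2 a s _ (zero_of_tendsto (hQ.cont (a, s)) hz h)).symm
  have hv : CHF fun x : γ × ℕ => (u x.1, x.2) := by fun_prop
  have h3 := (hf.comp (u := fun x : γ × ℕ => x.1) (by fun_prop)).glue (hQ.comp hv)
    (m := fun x => n (u x.1)) (by fun_prop)
  refine ⟨_, CHP.exists_lt (p := fun c s => t (u c, s) ∧ ∃ z,
    glue (n (u c)) (K (u c)) (f c) (Q (u c, s)) z = 0) ((ht.comp hv).and h3.core) (hJ.comp hu),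
    fun c y hy => ⟨?_, fun h => ?_⟩⟩
  · rintro ⟨s, -, h4, z, h5⟩
    rw [glue, add_eq_zero_iff_of_nonneg (hf.nn _ _) (hQ.nn (u c, s) _)] at h5
    exact (hS _ _ _ ((agree_sh _ _ _).symm.trans (hy.2 _ h5.1))).1 ((h2 _ _ _ h5.2).2 h4)
  · obtain ⟨s, hs, z, h4, h5⟩ := h1 (u c) y
    obtain ⟨w, hw⟩ := hy.1
    obtain ⟨v, h6, -⟩ := hQ.exists_glue (a := (u c, s)) (hnK _) hw h5
      ((hy.2 w hw).trans h4.symm)
    exact ⟨s, hs, (h2 _ _ _ h5).1 ((hS _ _ _ h4).2 h), v, h6⟩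

theorem signs {L : α → ℕ} (hn : CHF n) (hnb : PBd n) (hL : CHF L) (hLb : PBd L)
    {g : α → ℕ → Pt → ℝ} (hg : SG (rev n) (fun a l => l < L a) g) {Φ : α → List ℕ → Prop}
    (hΦ : CHP fun x : α × List ℕ => Φ x.1 x.2) :
    Df n fun a => {z | Φ a ((List.range (L a)).map fun l => sgc (g a l z))} := by
  have hK : CHF fun x : α × ℕ => n x.1 + L x.1 := by fun_prop
  have h1 : SG (rev fun x : α × ℕ => n x.1 + L x.1)
      (fun x (y : Unit × ℕ) => True ∧ y.2 < L x.1) fun x y => g x.1 y.2 :=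
    ((hg.more hn hnb (hn.add hL) fun _ => Nat.le_add_right _ _).comp (u := fun x : α × ℕ => x.1)
      (v := fun _ (y : Unit × ℕ) => y.2) (by fun_prop) (by fun_prop)).mono fun _ _ h => h.2
  have h2 : SG (rev fun x : α × ℕ => n x.1 + L x.1)
      (fun x (y : Unit × ℕ) => True ∧ y.2 < L x.1) fun x y z => g x.1 y.2 z * z (n x.1 + y.2) ^ 2 :=
    h1.mul (SG.var hK (by fun_prop) fun _ _ h => Nat.add_lt_add_left h.2 _).sq
  have h3 : ∀ a z w, agree (n a) z w → ∀ l < L a, g a l z = g a l w :=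
    fun a z w h l hl => hg.dep hl h
  refine cells (K := fun a => n a + L a) (J := fun a => 3 ^ L a) hn (hn.add hL) (hnb.add hLb)
    (by fun_prop) (fun a z w h => ?_) (Q := fun x z => ∑ l ∈ range (L x.1),
      tm ((digs 3 (L x.1) x.2).getD l 0) (g x.1 l z) (z (n x.1 + l)) ^ 2)
    ⟨hK, by fun_prop, SG.sum_range (m := fun (x : α × ℕ) _ => L x.1) (by fun_prop) (SG.sq ?_),
      fun _ _ => sum_nonneg fun _ _ => sq_nonneg _⟩ (fun _ => Nat.le_add_right _ _)
    (fun a y => ?_) (t := fun x => Φ x.1 (digs 3 (L x.1) x.2))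
    (hΦ.comp (f := fun x : α × ℕ => (x.1, digs 3 (L x.1) x.2)) (by fun_prop)) fun a s z hz => ?_
  · rw [Set.mem_ofPred_eq, Set.mem_ofPred_eq,
      List.map_congr_left fun l hl => by rw [h3 a z w h l (List.mem_range.1 hl)]]
  · unfold tm
    exact SG.ite (by fun_prop) (h1.mono fun _ _ h => h.1) (SG.ite (by fun_prop)
      ((h2.sub SG.one).mono fun _ _ h => h.1.1) (SG.ite (by fun_prop)
        ((h2.add SG.one).mono fun _ _ h => h.1.1.1) SG.one))
  · obtain ⟨s, hs, h4⟩ := exists_digs (B := 3) (k := L a)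
      (l := (List.range (L a)).map fun l => sgc (g a l y)) (by simp) fun x hx => by
        obtain ⟨l, -, rfl⟩ := List.mem_map.1 hx
        unfold sgc
        split_ifs <;> omega
    choose u hu using fun l => (exists_tm_eq_zero _ (g a l y)).2 rfl
    have h5 : agree (n a) (fun i => if i < n a then y i else u (i - n a)) y := fun i hi => if_pos hi
    refine ⟨s, hs, _, h5, sum_eq_zero fun l hl => ?_⟩
    have h6 := mem_range.1 hl
    rw [h3 a _ _ h5 l h6, h4]
    simp [List.getD_eq_getElem?_getD, h6, hu]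
  · rw [Set.mem_ofPred_eq]
    refine iff_of_eq (congrArg _ (List.ext_getElem (by simp [length_digs]) fun l h4 h5 => ?_))
    have h6 : l < L a := by simpa using h4
    have h7 := (exists_tm_eq_zero _ _).1 ⟨_, pow_eq_zero_iff two_ne_zero |>.1
      ((sum_eq_zero_iff_of_nonneg fun _ _ => sq_nonneg _).1 hz l (mem_range.2 h6))⟩
    rw [List.getD_eq_getElem _ _ h5] at h7
    simpa using h7

end Df

end Vale.Agent.N337A
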